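import Mathlib

set_option linter.unusedSectionVars false

namespace Vale.Agent.P047

open Finset

variable {ι κ : Type} [Fintype ι] [DecidableEq ι] [Fintype κ] [DecidableEq κ]

/-- The sign of a bit. -/
def sgn (b : Bool) : ℝ := if b then 1 else -1

/-- The character of `S`. -/
def chi (S : Finset ι) (x : ι → Bool) : ℝ := ∏ i ∈ S, sgn (x i)

/-- The unnormalised Fourier coefficient. -/
def cf (f : (ι → Bool) → ℝ) (S : Finset ι) : ℝ := ∑ x, f x * chi S x

/-- All coefficients above level `d` vanish. -/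
def DegLE (f : (ι → Bool) → ℝ) (d : ℕ) : Prop := ∀ S : Finset ι, d < S.card → cf f S = 0

/-- The linear coefficient sum, unnormalised. -/
def lin (f : (ι → Bool) → ℝ) : ℝ := ∑ i, cf f {i}

/-- The sum of all signs. -/
def tot (x : ι → Bool) : ℝ := ∑ i, sgn (x i)

omit [Fintype ι] [DecidableEq ι] in
lemma sgn_sq (b : Bool) : sgn b * sgn b = 1 := by cases b <;> norm_num [sgn]

lemma sgn_not (b : Bool) : sgn (!b) = - sgn b := by cases b <;> norm_num [sgn]

lemma sum_sgn : ∑ b : Bool, sgn b = 0 := by simp [sgn]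

omit [DecidableEq ι] [Fintype ι] in
lemma chi_abs (S : Finset ι) (x : ι → Bool) : |chi S x| = 1 := by
  rw [chi, Finset.abs_prod]
  exact prod_eq_one fun i _ => by cases x i <;> norm_num [sgn]

lemma lin_eq (f : (ι → Bool) → ℝ) : lin f = ∑ x, f x * tot x := by
  simp only [lin, cf, tot, chi, prod_singleton, mul_sum]
  exact sum_comm

omit [Fintype ι] in
/-- Flipping one coordinate inside `S` negates the character. -/
lemma chi_flip {S : Finset ι} {i : ι} (hi : i ∈ S) (x : ι → Bool) :
    chi S (Function.update x i (!x i)) = - chi S x := by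
  rw [chi, chi, ← mul_prod_erase S _ hi, ← mul_prod_erase S _ hi, Function.update_self, sgn_not,
    neg_mul]
  congr 2
  exact prod_congr rfl fun j hj => by rw [Function.update_of_ne (ne_of_mem_erase hj)]

/-- A function of the coordinates in `T` has degree at most `|T|`. -/
lemma degLE_dep {f : (ι → Bool) → ℝ} {T : Finset ι} {d : ℕ} (hT : T.card ≤ d)
    (hf : ∀ x y : ι → Bool, (∀ i ∈ T, x i = y i) → f x = f y) : DegLE f d := by
  intro S hS
  obtain ⟨i, hiS, hiT⟩ := not_subset.mp fun h : S ⊆ T =>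
    absurd (card_le_card h) (by omega)
  let e : (ι → Bool) ≃ (ι → Bool) := Function.Involutive.toPerm
    (fun x => Function.update x i (!x i)) (fun x => by
      funext j
      by_cases hj : j = i
      · subst hj; simp
      · simp [Function.update_of_ne hj])
  have h : cf f S = - cf f S := by
    unfold cf
    conv_lhs => rw [← e.sum_comp]
    rw [← sum_neg_distrib]
    refine sum_congr rfl fun x _ => ?_
    have h1 : e x = Function.update x i (!x i) := rfl
    rw [h1, chi_flip hiS, hf _ x fun j hj => Function.update_of_ne (fun h => hiT (by rw [← h]; exact hj)) _ _]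
    ring
  linarith

lemma chi_sum_sets (x y : ι → Bool) :
    ∑ S : Finset ι, chi S x * chi S y = if x = y then (2:ℝ) ^ Fintype.card ι else 0 := by
  simp only [chi, ← prod_mul_distrib]
  rw [← powerset_univ, ← prod_one_add]
  split_ifs with h
  · subst h
    simp only [sgn_sq, one_add_one_eq_two, prod_const, card_univ]
  · obtain ⟨i, hi⟩ := Function.ne_iff.mp h
    refine prod_eq_zero (mem_univ i) ?_
    revert hi
    cases x i <;> cases y i <;> norm_num [sgn]

lemma expansion (f : (ι → Bool) → ℝ) (x : ι → Bool) :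
    ∑ S : Finset ι, cf f S * chi S x = (2:ℝ) ^ Fintype.card ι * f x := by
  simp only [cf, sum_mul, mul_assoc]
  rw [sum_comm]
  simp only [← mul_sum, chi_sum_sets, mul_ite, mul_zero, sum_ite_eq', mem_univ, if_true]
  ring

/-! ### Pulling back along an equivalence of coordinates -/

lemma cf_reindex (e : ι ≃ κ) (f : (ι → Bool) → ℝ) (S : Finset κ) :
    cf (fun y => f (y ∘ e)) S = cf f (S.map e.symm.toEmbedding) := by
  unfold cf
  refine Fintype.sum_equiv (e.symm.arrowCongr (Equiv.refl Bool)) _ _ fun y => ?_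
  congr 1
  simp [chi]

lemma degLE_reindex (e : ι ≃ κ) {f : (ι → Bool) → ℝ} {d : ℕ} (h : DegLE f d) :
    DegLE (fun y => f (y ∘ e)) d := fun S hS => by
  rw [cf_reindex]; exact h _ (by rwa [card_map])

lemma lin_reindex (e : ι ≃ κ) (f : (ι → Bool) → ℝ) :
    lin (fun y => f (y ∘ e)) = lin f := by
  refine Fintype.sum_equiv e.symm _ _ fun i => ?_
  rw [cf_reindex]; simp

/-! ### Coordinates split into blocks -/

/-- The part of `S` in block `b`. -/
def slot (S : Finset (ι × κ)) (b : ι) : Finset κ := univ.filter fun k => (b, k) ∈ S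

lemma card_eq_sum_slot (S : Finset (ι × κ)) : S.card = ∑ b, (slot S b).card := by
  rw [← card_sigma]
  refine (card_bij (fun a _ => (a.1, a.2)) ?_ ?_ ?_).symm
  · rintro ⟨b, k⟩ h; simpa [slot] using h
  · rintro ⟨b, k⟩ _ ⟨b', k'⟩ _ h; simp at h; simp [h]
  · rintro ⟨b, k⟩ h; exact ⟨⟨b, k⟩, by simpa [slot] using h, rfl⟩

lemma chi_slot (S : Finset (ι × κ)) (x : ι × κ → Bool) :
    chi S x = ∏ b, chi (slot S b) (fun k => x (b, k)) := by
  simp only [chi, slot]
  rw [prod_sigma']
  refine (prod_bij (fun a _ => (a.1, a.2)) ?_ ?_ ?_ ?_).symm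
  · rintro ⟨b, k⟩ h; simpa using h
  · rintro ⟨b, k⟩ _ ⟨b', k'⟩ _ h; simp at h; simp [h]
  · rintro ⟨b, k⟩ h; exact ⟨⟨b, k⟩, by simpa using h, rfl⟩
  · intros; rfl

/-! ### Composition -/

/-- Blockwise composition. -/
def comp (g : (ι → Bool) → Bool) (h : (κ → Bool) → Bool) : (ι × κ → Bool) → Bool :=
  fun x => g fun b => h fun k => x (b, k)

/-- The real form of a Boolean function. -/
def re (g : (ι → Bool) → Bool) : (ι → Bool) → ℝ := fun x => sgn (g x)

lemma cf_empty_chi (S : Finset κ) :
    ∑ y : κ → Bool, chi S y = if S = ∅ then (2:ℝ) ^ Fintype.card κ else 0 := by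
  have h := chi_sum_sets (ι := κ)
  split_ifs with hS
  · subst hS; simp [chi]
  · have := degLE_dep (f := fun _ : κ → Bool => (1:ℝ)) (T := ∅) (d := 0) (by simp)
      (fun _ _ _ => rfl) S (card_pos.mpr (nonempty_iff_ne_empty.mpr hS))
    simpa [cf] using this

lemma cf_comp (g : (ι → Bool) → Bool) (h : (κ → Bool) → Bool) (S : Finset (ι × κ)) :
    (2:ℝ) ^ Fintype.card ι * cf (re (comp g h)) S =
      ∑ T : Finset ι, cf (re g) T *
        ∏ b, (if b ∈ T then cf (re h) (slot S b) else ∑ y : κ → Bool, chi (slot S b) y) := by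
  unfold cf
  rw [mul_sum]
  conv_lhs =>
    enter [2, x]
    rw [← mul_assoc, show (2:ℝ) ^ Fintype.card ι * re (comp g h) x
        = (2:ℝ) ^ Fintype.card ι * re g (fun b => h fun k => x (b, k)) from rfl, ← expansion,
      sum_mul]
  rw [sum_comm]
  refine sum_congr rfl fun T _ => ?_
  simp only [mul_assoc, ← mul_sum]
  congr 1
  have hp : ∀ b, (if b ∈ T then ∑ y, re h y * chi (slot S b) y
      else ∑ y, chi (slot S b) y) = ∑ y : κ → Bool,
        (if b ∈ T then sgn (h y) else 1) * chi (slot S b) y := by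
    intro b; split_ifs <;> simp [re]
  simp only [hp, Fintype.prod_sum]
  refine Fintype.sum_equiv (Equiv.curry ι κ Bool) _ _ fun x => ?_
  rw [chi_slot, prod_mul_distrib]
  congr 1
  rw [chi, ← prod_filter, filter_mem_eq_inter, univ_inter]
  rfl

/-- Degree, balance and linear sum of a composition with a balanced inner function. -/
theorem comp_spec {g : (ι → Bool) → Bool} {h : (κ → Bool) → Bool} {d e : ℕ}
    (hg : DegLE (re g) d) (hg0 : cf (re g) ∅ = 0) (hh : DegLE (re h) e)
    (hh0 : cf (re h) ∅ = 0) :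
    DegLE (re (comp g h)) (d * e) ∧ cf (re (comp g h)) ∅ = 0 ∧
      (2:ℝ) ^ Fintype.card ι * (2:ℝ) ^ Fintype.card κ * lin (re (comp g h))
        = (2:ℝ) ^ (Fintype.card κ * Fintype.card ι) * (lin (re g) * lin (re h)) := by
  have h2 : ∀ n : ℕ, (2:ℝ) ^ n ≠ 0 := fun n => by positivity
  refine ⟨fun S hS => ?_, ?_, ?_⟩
  · refine (mul_eq_zero.mp ((cf_comp g h S).trans (sum_eq_zero fun T _ => ?_))).resolve_left (h2 _)
    by_cases hT : d < T.card
    · rw [hg T hT, zero_mul]
    refine mul_eq_zero_of_right _ ?_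
    by_cases hex : ∃ b, b ∉ T ∧ slot S b ≠ ∅
    · obtain ⟨b, hb, hne⟩ := hex
      refine prod_eq_zero (mem_univ b) ?_
      rw [if_neg hb, cf_empty_chi, if_neg hne]
    push Not at hex
    have hcard : S.card = ∑ b ∈ T, (slot S b).card := by
      rw [card_eq_sum_slot]
      exact (sum_subset (subset_univ T) fun b _ hb => by simp [hex b hb]).symm
    have : ∃ b ∈ T, e < (slot S b).card := by
      by_contra hc
      push Not at hc
      have := (sum_le_sum hc).trans_eq (sum_const e)
      rw [smul_eq_mul] at this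
      nlinarith
    obtain ⟨b, hb, hbe⟩ := this
    refine prod_eq_zero (mem_univ b) ?_
    rw [if_pos hb, hh _ hbe]
  · refine (mul_eq_zero.mp ((cf_comp g h ∅).trans (sum_eq_zero fun T _ => ?_))).resolve_left (h2 _)
    rcases T.eq_empty_or_nonempty with rfl | ⟨b, hb⟩
    · rw [hg0, zero_mul]
    refine mul_eq_zero_of_right _ (prod_eq_zero (mem_univ b) ?_)
    rw [if_pos hb, show slot (∅ : Finset (ι × κ)) b = ∅ by simp [slot], hh0]
  · have key : ∀ i : ι, ∀ k : κ, (2:ℝ) ^ Fintype.card ι * cf (re (comp g h)) {(i, k)}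
        * (2:ℝ) ^ Fintype.card κ
        = (2:ℝ) ^ (Fintype.card κ * Fintype.card ι) * (cf (re g) {i} * cf (re h) {k}) := by
      intro i k
      have hs1 : slot ({(i, k)} : Finset (ι × κ)) i = {k} := by ext; simp [slot]
      have hs2 : ∀ b, b ≠ i → slot ({(i, k)} : Finset (ι × κ)) b = ∅ := by
        intro b hb; ext; simp [slot, hb]
      rw [cf_comp, sum_eq_single ({i} : Finset ι)]
      · rw [← mul_prod_erase univ _ (mem_univ i), if_pos (mem_singleton_self i), hs1,
          prod_congr rfl (fun b hb => ?_), prod_const, card_erase_of_mem (mem_univ i), card_univ]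
        rotate_left
        · exact (2:ℝ) ^ Fintype.card κ
        · rw [if_neg (by simpa using (mem_erase.mp hb).1), hs2 b (mem_erase.mp hb).1,
            cf_empty_chi, if_pos rfl]
        have : 0 < Fintype.card ι := Fintype.card_pos_iff.mpr ⟨i⟩
        obtain ⟨n, hn⟩ := Nat.exists_eq_succ_of_ne_zero this.ne'
        rw [hn, Nat.succ_sub_one, Nat.mul_succ, pow_add, pow_mul]
        ring
      · intro T _ hT
        refine mul_eq_zero_of_right _ ?_
        by_cases hi : i ∈ T
        · obtain ⟨b, hb, hbi⟩ : ∃ b ∈ T, b ≠ i := by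
            by_contra hc; push Not at hc
            exact hT (eq_singleton_iff_unique_mem.mpr ⟨hi, hc⟩)
          refine prod_eq_zero (mem_univ b) ?_
          rw [if_pos hb, hs2 b hbi, hh0]
        · refine prod_eq_zero (mem_univ i) ?_
          rw [if_neg hi, hs1, cf_empty_chi, if_neg (singleton_ne_empty k)]
      · intro hc; exact absurd (mem_univ _) hc
    simp only [lin]
    rw [Fintype.sum_prod_type, sum_mul_sum, mul_sum, mul_sum]
    refine sum_congr rfl fun i _ => ?_
    rw [mul_sum, mul_sum]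
    refine sum_congr rfl fun k _ => ?_
    linarith [key i k]

end Vale.Agent.P047
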