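import Vale.Agent.P047.Seed

namespace Vale.Agent.P047

open Finset Filter

lemma poly_le_two_pow (K p : ℕ) : ∃ J, ∀ j ≥ J, K * j ^ p ≤ 2 ^ j := by
  have h := tendsto_pow_const_div_const_pow_of_one_lt p (one_lt_two : (1:ℝ) < 2)
  have h2 := h.const_mul (K:ℝ)
  rw [mul_zero] at h2
  obtain ⟨J, hJ⟩ := eventually_atTop.mp (h2.eventually (ge_mem_nhds (zero_lt_one (α := ℝ))))
  refine ⟨J, fun j hj => ?_⟩
  have h3 := hJ j hj
  rw [← mul_div_assoc, div_le_one (by positivity)] at h3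
  exact_mod_cast h3

lemma delta_bound {N : ℕ} (hN : 0 < N) :
    Real.pi ^ 2 / (2 * (N:ℝ)) + 2 * (1 / (4 * (N:ℝ))) ≤ 5.5 / N := by
  have h1 : Real.pi ^ 2 ≤ 10 := by nlinarith [Real.pi_pos, Real.pi_lt_d2]
  have hN' : (0:ℝ) < N := by exact_mod_cast hN
  rw [show Real.pi ^ 2 / (2 * (N:ℝ)) + 2 * (1 / (4 * (N:ℝ)))
    = ((Real.pi ^ 2 + 1) / 2) / N by field_simp; ring]
  exact div_le_div_of_nonneg_right (by linarith) hN'.le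

lemma param_real {ρ N e j : ℕ} (hNpos : 0 < N) (hrN : 2 ^ ρ ≤ 8 * N)
    (hbig : (4:ℝ) ^ 11 * 44 ^ 2 * 250000 ≤ (2:ℝ) ^ ρ) (heu : 4 ^ e ≤ 4 ^ 11 * (5000 * j)) :
    ((2:ℝ) ^ (ρ + e) * (5.5 / N)) ^ 2 ≤ ((2 ^ ρ : ℕ) : ℝ) * (5000 * j) / 250000 := by
  have h1 : ((4:ℝ) ^ e) ≤ 4 ^ 11 * (5000 * (j:ℝ)) := by exact_mod_cast heu
  have hrN' : (2:ℝ) ^ ρ ≤ 8 * N := by exact_mod_cast hrN
  have h2 : (2:ℝ) ^ ρ * (5.5 / N) ≤ 44 := by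
    rw [← mul_div_assoc, div_le_iff₀ (by positivity)]; linarith only [hrN']
  have h3 : ((2:ℝ) ^ ρ * (5.5 / N)) ^ 2 ≤ 44 ^ 2 := pow_le_pow_left₀ (by positivity) h2 2
  have e4 : ((2:ℝ) ^ e) ^ 2 = 4 ^ e := by rw [← pow_mul, mul_comm, pow_mul]; norm_num
  calc ((2:ℝ) ^ (ρ + e) * (5.5 / N)) ^ 2 = ((2:ℝ) ^ ρ * (5.5 / N)) ^ 2 * 4 ^ e := by
        rw [← e4]; simp only [pow_add]; ring
    _ ≤ 44 ^ 2 * (4 ^ 11 * (5000 * (j:ℝ))) := mul_le_mul h3 h1 (by positivity) (by positivity)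
    _ ≤ _ := by
        rw [le_div_iff₀ (by norm_num)]
        push_cast
        have hjr : (0:ℝ) ≤ 5000 * (j:ℝ) := by positivity
        calc 44 ^ 2 * (4 ^ 11 * (5000 * (j:ℝ))) * 250000
            = (4 ^ 11 * 44 ^ 2 * 250000) * (5000 * (j:ℝ)) := by ring
          _ ≤ _ := mul_le_mul_of_nonneg_right hbig hjr

lemma param_nat {ρ N κ e j K1 : ℕ} (hNpos : 0 < N) (hj : 0 < j)
    (hj2 : 4 * 2 ^ ρ * 50 * 101 * 256 * 16 * 10000 * K1 ^ 2 * j ^ (2 * N + 3) ≤ 2 ^ j)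
    (h2l : 2 ^ (κ + 2 * N * (ρ + e) + 1) ≤ K1 * j ^ N) :
    4 * 2 ^ ρ * 2 ^ e * (50 * ((100 * j + 1) *
      (256 * 2 ^ (κ + 2 * N * (ρ + e) + 1) * (16 * (100 * j) ^ 2) * 2 ^ (99 * j)))) ≤ 2 ^ (100 * j) := by
  set l := κ + 2 * N * (ρ + e) + 1
  have he2 : 2 ^ e ≤ 2 ^ l := Nat.pow_le_pow_right two_pos (by
    have : 1 * e ≤ 2 * N * (ρ + e) := Nat.mul_le_mul (by omega) (Nat.le_add_left e ρ)
    omega)
  have hm1 : 100 * j + 1 ≤ 101 * j := by omega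
  calc 4 * 2 ^ ρ * 2 ^ e * (50 * ((100 * j + 1) * (256 * 2 ^ l * (16 * (100 * j) ^ 2) * 2 ^ (99 * j))))
      ≤ 4 * 2 ^ ρ * 2 ^ l * (50 * ((101 * j) * (256 * 2 ^ l * (16 * (100 * j) ^ 2) * 2 ^ (99 * j)))) := by
        gcongr
    _ = 4 * 2 ^ ρ * 50 * 101 * 256 * 16 * 10000 * j ^ 3 * (2 ^ l) ^ 2 * 2 ^ (99 * j) := by ring
    _ ≤ 4 * 2 ^ ρ * 50 * 101 * 256 * 16 * 10000 * j ^ 3 * (K1 * j ^ N) ^ 2 * 2 ^ (99 * j) := by gcongr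
    _ = (4 * 2 ^ ρ * 50 * 101 * 256 * 16 * 10000 * K1 ^ 2 * j ^ (2 * N + 3)) * 2 ^ (99 * j) := by ring
    _ ≤ 2 ^ j * 2 ^ (99 * j) := Nat.mul_le_mul_right _ hj2
    _ = _ := by rw [← pow_add]; congr 1; ring

/-- Balanced seeds with linear sum exceeding the square root of the degree. -/
theorem exists_seed_of (ρ N : ℕ) (hodd : Odd N) (hρ : 2 ≤ ρ) (hr : 200 ≤ 2 ^ ρ) (hN : 2 * N ≤ 2 ^ ρ / 3)
    (hrN : 2 ^ ρ ≤ 8 * N) (hbig : (4:ℝ) ^ 11 * 44 ^ 2 * 250000 ≤ (2:ℝ) ^ ρ) :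
    ∃ (ι : Type) (_ : Fintype ι) (_ : DecidableEq ι) (f : (ι → Bool) → Bool) (D : ℕ),
      0 < D ∧ DegLE (re f) D ∧ cf (re f) ∅ = 0 ∧ 0 < lin (re f) ∧
        (D:ℝ) * ((2:ℝ) ^ Fintype.card ι) ^ 2 < lin (re f) ^ 2 := by
  have hNpos : 0 < N := hodd.pos
  have hNr : (1:ℝ) ≤ N := by exact_mod_cast hNpos
  obtain ⟨κ, c, hP⟩ := sign_poly hodd (δ := 1 / (4 * (N:ℝ))) (by positivity) (by
    rw [div_lt_one (by positivity)]; linarith)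
  obtain ⟨K1, hK1⟩ : ∃ K1 : ℕ, K1 = 2 ^ (κ + 1) * 2 ^ (ρ * (2 * N)) * (4 ^ 11 * 5000) ^ N :=
    ⟨_, rfl⟩
  obtain ⟨K2, hK2⟩ : ∃ K2 : ℕ, K2 = 4 * 2 ^ ρ * 50 * 101 * 256 * 16 * 10000 := ⟨_, rfl⟩
  obtain ⟨J1, hJ1⟩ := poly_le_two_pow (K1 ^ 4) (4 * N)
  obtain ⟨J2, hJ2⟩ := poly_le_two_pow (K2 * K1 ^ 2) (2 * N + 3)
  set j := max (max J1 J2) 1
  have hj : 0 < j := lt_of_lt_of_le one_pos (le_max_right _ _)
  have hj1 := hJ1 j ((le_max_left _ _).trans (le_max_left _ _))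
  have hj2 := hJ2 j ((le_max_right _ _).trans (le_max_left _ _))
  set e := Nat.log 4 (5000 * j) + 11 with he
  have hlog1 : 4 ^ Nat.log 4 (5000 * j) ≤ 5000 * j := Nat.pow_log_le_self 4 (by omega)
  have hlog2 : 5000 * j < 4 ^ (Nat.log 4 (5000 * j) + 1) :=
    Nat.lt_pow_succ_log_self (by norm_num) _
  have heu : 4 ^ e ≤ 4 ^ 11 * (5000 * j) := by
    rw [he, pow_add, mul_comm]; exact Nat.mul_le_mul_left _ hlog1
  have hel : 4 ^ 10 * (5000 * j) ≤ 4 ^ e := by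
    calc 4 ^ 10 * (5000 * j) ≤ 4 ^ 10 * 4 ^ (Nat.log 4 (5000 * j) + 1) :=
          Nat.mul_le_mul_left _ hlog2.le
      _ = 4 ^ e := by rw [← pow_add]; congr 1; omega
  set b := ρ + e
  set l := κ + 2 * N * b + 1 with hl
  have h2l : 2 ^ l ≤ K1 * j ^ N := by
    calc 2 ^ l = 2 ^ (κ + 1) * 2 ^ (ρ * (2 * N)) * (4 ^ e) ^ N := by
          rw [show (4:ℕ) = 2 ^ 2 from rfl, ← pow_mul 2 2 e, ← pow_mul 2 (2 * e) N,
            ← pow_add, ← pow_add]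
          congr 1; simp only [hl, b]; ring
      _ ≤ 2 ^ (κ + 1) * 2 ^ (ρ * (2 * N)) * (4 ^ 11 * (5000 * j)) ^ N :=
          Nat.mul_le_mul_left _ (Nat.pow_le_pow_left heu N)
      _ = _ := by
          rw [hK1, ← mul_assoc (4 ^ 11 : ℕ) 5000 j, mul_pow _ j N]; ring
  have hl4 : 4 * l ≤ j := by
    have h : 2 ^ (4 * l) ≤ 2 ^ j := by
      calc 2 ^ (4 * l) = (2 ^ l) ^ 4 := by rw [← pow_mul, mul_comm]
        _ ≤ (K1 * j ^ N) ^ 4 := Nat.pow_le_pow_left h2l 4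
        _ = K1 ^ 4 * j ^ (4 * N) := by rw [mul_pow, ← pow_mul, mul_comm N 4]
        _ ≤ _ := hj1
    exact (Nat.pow_le_pow_iff_right one_lt_two).mp h
  have hπ := delta_bound hNpos
  refine seed_core (r := 2 ^ ρ) (N := N) (e := e) (b := b) (κ := κ) (j := j) (l := l) c
    (5.5 / N) hr hj (Even.pow_of_ne_zero even_two (by omega)) hN (le_of_eq (pow_add 2 ρ e).symm)
    hl hl4 hel (fun y hy => ⟨(hP y hy).1, le_trans ?_ (hP y hy).2⟩) ?_ ?_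
  · linarith only [hπ]
  · exact param_real hNpos hrN hbig heu
  · exact param_nat hNpos hj (by rw [← hK2]; exact hj2) h2l

/-- A seed exists. -/
theorem exists_seed :
    ∃ (ι : Type) (_ : Fintype ι) (_ : DecidableEq ι) (f : (ι → Bool) → Bool) (D : ℕ),
      0 < D ∧ DegLE (re f) D ∧ cf (re f) ∅ = 0 ∧ 0 < lin (re f) ∧
        (D:ℝ) * ((2:ℝ) ^ Fintype.card ι) ^ 2 < lin (re f) ^ 2 :=
  exists_seed_of 60 (2 ^ 57 + 1) ⟨2 ^ 56, by norm_num⟩ (by norm_num) (by norm_num) (by norm_num)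
    (by norm_num) (by norm_num)

/-- Iterated composition of a balanced function. -/
theorem iterate_seed {ι : Type} [Fintype ι] [DecidableEq ι] {f : (ι → Bool) → Bool} {D : ℕ}
    (hD : DegLE (re f) D) (h0 : cf (re f) ∅ = 0) (k : ℕ) :
    ∃ (κ : Type) (_ : Fintype κ) (_ : DecidableEq κ) (g : (κ → Bool) → Bool),
      DegLE (re g) (D ^ (k + 1)) ∧ cf (re g) ∅ = 0 ∧
        lin (re g) / 2 ^ Fintype.card κ = (lin (re f) / 2 ^ Fintype.card ι) ^ (k + 1) := by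
  induction k with
  | zero => exact ⟨ι, inferInstance, inferInstance, f, by simpa using hD, h0, by simp⟩
  | succ k ih =>
    obtain ⟨κ, iF, iD, g, hg, hg0, hgl⟩ := ih
    obtain ⟨h1, h2, h3⟩ := comp_spec hD h0 hg hg0
    refine ⟨ι × κ, inferInstance, inferInstance, comp f g, ?_, h2, ?_⟩
    · rwa [pow_succ']
    · rw [pow_succ', ← hgl, Fintype.card_prod, mul_comm (Fintype.card ι) (Fintype.card κ),
        div_mul_div_comm, div_eq_div_iff (by positivity) (by positivity)]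
      linarith [h3]

end Vale.Agent.P047
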