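import Mathlib

namespace Vale.Agent.P047

open Real Finset Polynomial

lemma cheb_sin {N : ℕ} (hN : Odd N) (φ : ℝ) :
    |(Chebyshev.T ℝ (N : ℤ)).eval (sin φ)| = |sin (N * φ)| := by
  obtain ⟨k, rfl⟩ := hN
  rw [← cos_pi_div_two_sub φ, Chebyshev.T_real_cos]
  push_cast
  rw [show (2 * (k:ℝ) + 1) * (π / 2 - φ) = (π / 2 - (2 * k + 1) * φ) + k * π by ring,
    cos_add_nat_mul_pi, abs_mul, abs_pow, abs_neg, abs_one, one_pow, one_mul, cos_pi_div_two_sub]

/-- A bounded odd-like polynomial close to the sign function. -/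
theorem sign_poly {N : ℕ} (hN : Odd N) {δ : ℝ} (hδ : 0 < δ) (hδ1 : δ < 1) :
    ∃ (κ : ℕ) (c : ℕ → ℤ), ∀ y : ℝ, |y| ≤ 1 →
      |(∑ i ∈ range (2 * N + 1), (c i : ℝ) * y ^ i) / 2 ^ κ| ≤ 1 ∧
      |y| - π ^ 2 / (2 * N) - 2 * δ ≤ y * ((∑ i ∈ range (2 * N + 1), (c i : ℝ) * y ^ i) / 2 ^ κ) := by
  have hNpos : (0:ℝ) < N := by exact_mod_cast hN.pos
  set T := Chebyshev.T ℝ (N : ℤ) with hT
  set R := T.divX with hR
  have hT0 : T.eval 0 = 0 := by
    have := cheb_sin hN 0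
    simpa [hT] using this
  have hXR : ∀ y : ℝ, y * R.eval y = T.eval y := by
    intro y
    conv_rhs => rw [← X_mul_divX_add T]
    rw [eval_add, eval_mul, eval_X, eval_C, coeff_zero_eq_eval_zero, hT0, add_zero, hR]
  have habs : ∀ y : ℝ, |y| ≤ 1 → |y * R.eval y| = |sin (N * arcsin y)| := by
    intro y hy
    rw [hXR, hT]
    conv_lhs => rw [← sin_arcsin (abs_le.mp hy).1 (abs_le.mp hy).2]
    exact cheb_sin hN _
  set Q := R * R with hQ
  have hdegQ : Q.natDegree < 2 * N := by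
    have h1 : T.natDegree ≤ N := by rw [hT, Chebyshev.natDegree_T]; simp
    have h2 : R.natDegree ≤ N - 1 := by rw [hR, natDegree_divX_eq_natDegree_tsub_one]; omega
    have := natDegree_mul_le (p := R) (q := R)
    have := hN.pos
    rw [hQ]; omega
  set Φ : ℝ[X] := ∑ i ∈ range (2 * N), monomial (i + 1) (Q.coeff i / (i + 1)) with hΦ
  have hder : derivative Φ = Q := by
    conv_rhs => rw [Q.as_sum_range' (2 * N) hdegQ]
    rw [hΦ, derivative_sum]
    refine sum_congr rfl fun i _ => ?_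
    rw [derivative_monomial]
    congr 1
    push_cast
    field_simp
  set Ψ : ℝ → ℝ := fun y => Φ.eval y - Φ.eval (-y) with hΨ
  have hΨd : ∀ y, HasDerivAt Ψ (Q.eval y + Q.eval (-y)) y := by
    intro y
    have h1 := (Φ.hasDerivAt y)
    have h2 := (Φ.hasDerivAt (-y)).comp y (hasDerivAt_neg y)
    rw [hder] at h1 h2
    exact (h1.sub h2).congr_deriv (by ring)
  have hΨc : Continuous Ψ := continuous_iff_continuousAt.mpr fun y => (hΨd y).continuousAt
  have hQ0 : ∀ y, 0 ≤ Q.eval y := fun y => by rw [hQ, eval_mul]; exact mul_self_nonneg _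
  have hlow : ∀ y : ℝ, 0 < |y| → |y| ≤ 1 / (2 * N) → (2 * N / π) ^ 2 ≤ Q.eval y := by
    intro y hy0 hy
    have hy1 : |y| ≤ 1 := hy.trans (by
      rw [div_le_one (by positivity)]
      have : (1:ℝ) ≤ N := by exact_mod_cast hN.pos
      linarith)
    set φ := arcsin |y|
    have hφ0 : 0 ≤ φ := arcsin_nonneg.mpr (abs_nonneg y)
    have hφs : sin φ = |y| := sin_arcsin (by linarith [abs_nonneg y]) hy1
    have h1 : 2 / π * φ ≤ |y| := hφs ▸ mul_le_sin hφ0 (arcsin_le_pi_div_two _)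
    have h2 : |y| ≤ φ := hφs ▸ sin_le hφ0
    have h3 : (N:ℝ) * φ ≤ π / 2 := by
      have h4 : 2 / π * φ * (π * N) ≤ 1 / (2 * N) * (π * N) :=
        mul_le_mul_of_nonneg_right (h1.trans hy) (by positivity)
      have e1 : 2 / π * φ * (π * N) = 2 * (N * φ) := by field_simp
      have e2 : 1 / (2 * (N:ℝ)) * (π * N) = π / 2 := by field_simp
      rw [e1, e2] at h4
      linarith [pi_pos]
    have h5 : 2 / π * (N * φ) ≤ sin (N * φ) := mul_le_sin (by positivity) h3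
    have h6 : |sin (N * arcsin y)| = |sin (N * φ)| := by
      rcases le_total 0 y with h | h
      · simp only [φ, abs_of_nonneg h]
      · simp only [φ, abs_of_nonpos h, arcsin_neg, mul_neg, sin_neg, abs_neg]
    have h7 : 2 * N / π * |y| ≤ |R.eval y| * |y| := by
      calc 2 * (N:ℝ) / π * |y| ≤ 2 * N / π * φ := mul_le_mul_of_nonneg_left h2 (by positivity)
        _ = 2 / π * (N * φ) := by ring
        _ ≤ |sin (N * φ)| := h5.trans (le_abs_self _)
        _ = _ := by rw [← h6, ← habs y hy1, abs_mul, mul_comm]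
    have h8 := le_of_mul_le_mul_right h7 hy0
    rw [hQ, eval_mul, ← sq, ← sq_abs (R.eval y)]
    exact pow_le_pow_left₀ (by positivity) h8 2
  have hup : ∀ y : ℝ, 0 < |y| → |y| ≤ 1 → Q.eval y ≤ 1 / y ^ 2 := by
    intro y hy0 hy1
    have hy : y ≠ 0 := abs_pos.mp hy0
    rw [le_div_iff₀ (by positivity), hQ, eval_mul]
    have h := habs y hy1
    have : |y * R.eval y| ≤ 1 := h ▸ abs_sin_le_one _
    have := (sq_le_one_iff_abs_le_one _).mpr this
    nlinarith
  have hmono : MonotoneOn Ψ (Set.Icc 0 1) := by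
    refine monotoneOn_of_deriv_nonneg (convex_Icc 0 1) hΨc.continuousOn
      (fun y _ => (hΨd y).differentiableAt.differentiableWithinAt) fun y _ => ?_
    rw [(hΨd y).deriv]; linarith [hQ0 y, hQ0 (-y)]
  have hΨ0 : Ψ 0 = 0 := by simp [hΨ]
  set η : ℝ := 1 / (2 * N) with hη
  have hη0 : 0 < η := by positivity
  have hη1 : η ≤ 1 := by
    rw [hη, div_le_one (by positivity)]
    have : (1:ℝ) ≤ N := by exact_mod_cast hN.pos
    linarith
  have hZ : 4 * N / π ^ 2 ≤ Ψ 1 := by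
    have h := (convex_Icc (0:ℝ) η).mul_sub_le_image_sub_of_le_deriv hΨc.continuousOn
      (fun y _ => (hΨd y).differentiableAt.differentiableWithinAt)
      (C := 2 * (2 * N / π) ^ 2) (fun y hy => by
        rw [interior_Icc] at hy
        rw [(hΨd y).deriv]
        have := hlow y (abs_pos.mpr hy.1.ne') (by rw [abs_of_pos hy.1]; exact hy.2.le)
        have := hlow (-y) (by rw [abs_neg]; exact abs_pos.mpr hy.1.ne')
          (by rw [abs_neg, abs_of_pos hy.1]; exact hy.2.le)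
        linarith) 0 (by simp [hη0.le]) η (by simp [hη0.le]) hη0.le
    rw [hΨ0, sub_zero, sub_zero] at h
    have h2 := hmono (by simp [hη0.le, hη1]) (by simp) hη1
    have e : 2 * (2 * N / π) ^ 2 * η = 4 * N / π ^ 2 := by rw [hη]; field_simp; ring
    linarith
  have hZpos : 0 < Ψ 1 := lt_of_lt_of_le (by positivity) hZ
  have hgap : ∀ y : ℝ, 0 ≤ y → y ≤ 1 → y * (Ψ 1 - Ψ y) ≤ 2 := by
    intro y h0 h1
    rcases h0.eq_or_lt with rfl | hpos
    · simp
    have hd : ∀ z ∈ Set.Icc y 1, HasDerivAt (fun z => Ψ z + 2 * z⁻¹)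
        ((Q.eval z + Q.eval (-z)) + 2 * -(z ^ 2)⁻¹) z := fun z hz =>
      (hΨd z).add ((hasDerivAt_inv (lt_of_lt_of_le hpos hz.1).ne').const_mul 2)
    have hanti : AntitoneOn (fun z => Ψ z + 2 * z⁻¹) (Set.Icc y 1) := by
      refine antitoneOn_of_deriv_nonpos (convex_Icc y 1)
        (fun z hz => (hd z hz).continuousAt.continuousWithinAt)
        (fun z hz => (hd z (interior_subset hz)).differentiableAt.differentiableWithinAt)
        fun z hz => ?_
      rw [(hd z (interior_subset hz)).deriv]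
      rw [interior_Icc] at hz
      have hz0 : 0 < z := hpos.trans hz.1
      have := hup z (abs_pos.mpr hz0.ne') (by rw [abs_of_pos hz0]; exact hz.2.le)
      have := hup (-z) (by rw [abs_neg]; exact abs_pos.mpr hz0.ne')
        (by rw [abs_neg, abs_of_pos hz0]; exact hz.2.le)
      rw [neg_sq, one_div] at this
      rw [one_div] at *
      linarith
    have h := hanti (Set.left_mem_Icc.mpr h1) (Set.right_mem_Icc.mpr h1) h1
    simp only [inv_one, mul_one] at h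
    have h' : y * (Ψ 1 + 2) ≤ y * (Ψ y + 2 * y⁻¹) := mul_le_mul_of_nonneg_left h hpos.le
    rw [mul_add y (Ψ y), mul_left_comm y 2, mul_inv_cancel₀ hpos.ne', mul_one] at h'
    nlinarith
  -- dyadic rounding
  set a : ℕ → ℝ := fun i => (1 - δ) * ((Φ.coeff i - Φ.coeff i * (-1) ^ i) / Ψ 1) with ha
  have hΦdeg : Φ.natDegree < 2 * N + 1 := by
    rw [Nat.lt_succ_iff, hΦ]
    refine natDegree_sum_le_of_forall_le _ _ fun i hi => ?_
    exact (natDegree_monomial_le _).trans (by have := mem_range.mp hi; omega)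
  have hsum : ∀ y, ∑ i ∈ range (2 * N + 1), a i * y ^ i = (1 - δ) * (Ψ y / Ψ 1) := by
    intro y
    show _ = (1 - δ) * ((Φ.eval y - Φ.eval (-y)) / Ψ 1)
    rw [eval_eq_sum_range' hΦdeg, eval_eq_sum_range' hΦdeg, ← sum_sub_distrib, sum_div, mul_sum]
    refine sum_congr rfl fun i _ => ?_
    rw [neg_pow y]
    simp only [a]; ring
  obtain ⟨κ, hκ⟩ := pow_unbounded_of_one_lt ((2 * N + 1 : ℝ) / δ) one_lt_two
  refine ⟨κ, fun i => ⌊a i * 2 ^ κ⌋, fun y hy => ?_⟩
  set P := (∑ i ∈ range (2 * N + 1), (⌊a i * 2 ^ κ⌋ : ℝ) * y ^ i) / 2 ^ κ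
  have hclose : |P - (1 - δ) * (Ψ y / Ψ 1)| ≤ δ := by
    rw [← hsum, show P = ∑ i ∈ range (2 * N + 1), (⌊a i * 2 ^ κ⌋ : ℝ) * y ^ i / 2 ^ κ from sum_div _ _ _,
      ← sum_sub_distrib]
    refine (abs_sum_le_sum_abs _ _).trans ((sum_le_sum fun i _ =>
      (show |(⌊a i * 2 ^ κ⌋ : ℝ) * y ^ i / 2 ^ κ - a i * y ^ i| ≤ 1 / 2 ^ κ from ?_)).trans ?_)
    · have e : (⌊a i * 2 ^ κ⌋ : ℝ) * y ^ i / 2 ^ κ - a i * y ^ i
          = -(Int.fract (a i * 2 ^ κ) * y ^ i / 2 ^ κ) := by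
        rw [Int.fract]; field_simp; ring
      rw [e, abs_neg, abs_div, abs_mul, abs_pow, abs_pow, abs_two, Int.abs_fract]
      gcongr
      exact mul_le_one₀ (Int.fract_lt_one _).le (by positivity) (pow_le_one₀ (abs_nonneg y) hy)
    · rw [sum_const, card_range, nsmul_eq_mul]
      rw [div_lt_iff₀ hδ] at hκ
      rw [mul_one_div, div_le_iff₀ (by positivity)]
      push_cast
      linarith
  have hkey : ∀ z : ℝ, 0 ≤ z → z ≤ 1 → 0 ≤ Ψ z / Ψ 1 ∧ Ψ z / Ψ 1 ≤ 1 ∧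
      z - π ^ 2 / (2 * N) ≤ z * (Ψ z / Ψ 1) := by
    intro z h0 h1
    refine ⟨div_nonneg (hΨ0 ▸ hmono (by simp) ⟨h0, h1⟩ h0) hZpos.le, ?_, ?_⟩
    · rw [div_le_one hZpos]; exact hmono ⟨h0, h1⟩ (by simp) h1
    · have h2 := hgap z h0 h1
      have h3 : 2 ≤ π ^ 2 / (2 * N) * Ψ 1 := by
        refine le_trans ?_ (mul_le_mul_of_nonneg_left hZ (by positivity))
        refine le_of_eq ?_
        field_simp
        ring
      have e : z - z * (Ψ z / Ψ 1) = z * (Ψ 1 - Ψ z) / Ψ 1 := by field_simp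
      have : z * (Ψ 1 - Ψ z) / Ψ 1 ≤ π ^ 2 / (2 * N) := by rw [div_le_iff₀ hZpos]; linarith
      linarith
  obtain ⟨hv, hyv⟩ : |Ψ y / Ψ 1| ≤ 1 ∧ |y| - π ^ 2 / (2 * N) ≤ y * (Ψ y / Ψ 1) := by
    rcases le_total 0 y with h | h
    · obtain ⟨a0, a1, a2⟩ := hkey y h (abs_le.mp hy).2
      rw [abs_of_nonneg h, abs_of_nonneg a0]
      exact ⟨a1, a2⟩
    · obtain ⟨a0, a1, a2⟩ := hkey (-y) (by linarith) (by linarith [(abs_le.mp hy).1])
      have e : Ψ (-y) / Ψ 1 = -(Ψ y / Ψ 1) := by simp only [hΨ, neg_neg]; ring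
      rw [e] at a0 a1 a2
      rw [abs_of_nonpos h, abs_of_nonpos (by linarith)]
      exact ⟨a1, by linarith⟩
  refine ⟨?_, ?_⟩
  · calc |P| ≤ |(1 - δ) * (Ψ y / Ψ 1)| + |P - (1 - δ) * (Ψ y / Ψ 1)| := by
          have := abs_add_le ((1 - δ) * (Ψ y / Ψ 1)) (P - (1 - δ) * (Ψ y / Ψ 1))
          simpa using this
      _ ≤ (1 - δ) + δ := add_le_add (by
          rw [abs_mul, abs_of_pos (by linarith : 0 < 1 - δ)]
          exact mul_le_of_le_one_right (by linarith) hv) hclose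
      _ = 1 := by ring
  · have h1 : |y * (P - (1 - δ) * (Ψ y / Ψ 1))| ≤ δ := by
      rw [abs_mul]
      exact (mul_le_of_le_one_left (abs_nonneg _) hy).trans hclose
    have h2 : |y * (Ψ y / Ψ 1)| ≤ 1 := by
      rw [abs_mul]; exact mul_le_one₀ hy (abs_nonneg _) hv
    have e : y * P = y * (Ψ y / Ψ 1) - δ * (y * (Ψ y / Ψ 1)) + y * (P - (1 - δ) * (Ψ y / Ψ 1)) := by
      ring
    nlinarith [(abs_le.mp h1).1, (abs_le.mp h2).2]

end Vale.Agent.P047
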