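import Vale.Agent.P047.Sums
import Vale.Agent.P047.Poly

set_option linter.unusedSectionVars false

namespace Vale.Agent.P047

open Finset

variable {ι : Type} [Fintype ι] [DecidableEq ι]

lemma high_count (j : ℕ) :
    Fintype.card {S : Finset (Fin (100 * j)) // 56 * j < S.card} ≤ 2 ^ (99 * j) := by
  rw [Fintype.card_subtype]
  set F := univ.filter fun S : Finset (Fin (100 * j)) => 56 * j < S.card
  have h1 : (F.card : ℝ) * (5/4) ^ (56 * j) ≤ (9/4) ^ (100 * j) := by
    calc (F.card : ℝ) * (5/4) ^ (56 * j) = ∑ _S ∈ F, (5/4:ℝ) ^ (56 * j) := by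
          rw [sum_const, nsmul_eq_mul]
      _ ≤ ∑ S ∈ F, (5/4:ℝ) ^ S.card :=
          sum_le_sum fun S hS => pow_le_pow_right₀ (by norm_num) (mem_filter.mp hS).2.le
      _ ≤ ∑ S : Finset (Fin (100 * j)), (5/4:ℝ) ^ S.card :=
          sum_le_sum_of_subset_of_nonneg (subset_univ _) fun S _ _ => by positivity
      _ = _ := by
          have := Fintype.sum_pow_mul_eq_add_pow (Fin (100 * j)) (5/4:ℝ) 1
          simp only [one_pow, mul_one, Fintype.card_fin] at this
          rw [this]; norm_num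
  have h2 : (9/4:ℝ) ^ (100 * j) ≤ (2:ℝ) ^ (99 * j) * (5/4) ^ (56 * j) := by
    rw [pow_mul, pow_mul, pow_mul, ← mul_pow]
    exact pow_le_pow_left₀ (by positivity) (by norm_num) j
  have h3 : (F.card : ℝ) ≤ (2:ℝ) ^ (99 * j) :=
    le_of_mul_le_mul_right (h1.trans h2) (by positivity)
  exact_mod_cast h3

/-- The odd extension. -/
def ext1 (f : (ι → Bool) → Bool) : (Unit ⊕ ι → Bool) → Bool := fun x =>
  if x (Sum.inl ()) then f (x ∘ Sum.inr) else !f (fun i => !x (Sum.inr i))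

lemma ext1_spec (f : (ι → Bool) → Bool) {D : ℕ} (h : DegLE (re f) D) :
    DegLE (re (ext1 f)) (D + 1) ∧ cf (re (ext1 f)) ∅ = 0 ∧
      lin (re (ext1 f)) = 2 * (cf (re f) ∅ + lin (re f)) := by
  let e : (ι → Bool) ≃ (ι → Bool) := Function.Involutive.toPerm
    (fun y i => !y i) (fun y => by funext i; simp)
  have he : ∀ (y : ι → Bool) (i : ι), e y i = !y i := fun _ _ => rfl
  have hsplit : ∀ φ : (Unit ⊕ ι → Bool) → ℝ, ∑ x, φ x
      = ∑ y : ι → Bool, (φ (Sum.elim (fun _ => true) y) + φ (Sum.elim (fun _ => false) (e y))) := by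
    intro φ
    rw [← (Equiv.sumArrowEquivProdArrow Unit ι Bool).symm.sum_comp, Fintype.sum_prod_type,
      ← (Equiv.funUnique Unit Bool).symm.sum_comp]
    simp only [Fintype.sum_bool]
    rw [sum_add_distrib]
    congr 1
    exact (e.sum_comp (fun y => φ (Sum.elim (fun _ => false) y))).symm
  have hT : ∀ y, re (ext1 f) (Sum.elim (fun _ => true) y) = re f y := fun y => by
    simp [re, ext1]
  have hF : ∀ y, re (ext1 f) (Sum.elim (fun _ => false) (e y)) = - re f y := fun y => by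
    simp [re, ext1, sgn_not, he]
  refine ⟨fun S hS => ?_, ?_, ?_⟩
  · unfold cf
    rw [hsplit]
    have hR : D < S.toRight.card := by
      have := card_toLeft_add_card_toRight (u := S)
      have h1 := card_le_univ S.toLeft
      simp only [Fintype.card_unit] at h1
      omega
    have h0 := h _ hR
    unfold cf at h0
    simp only [hT, hF, chi_sum_type S]
    have hneg : ∀ y, chi S.toRight (e y) = (-1) ^ S.toRight.card * chi S.toRight y := by
      intro y
      simp only [chi, he, sgn_not, prod_neg]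
    simp only [Sum.elim_comp_inl, Sum.elim_comp_inr, hneg]
    rw [sum_add_distrib]
    have : ∀ a : ℝ, ∑ y, re f y * (a * chi S.toRight y) = 0 := fun a => by
      simp only [mul_left_comm (re f _) a, ← mul_sum, h0, mul_zero]
    simp only [this, neg_mul, sum_neg_distrib, ← mul_assoc (chi S.toLeft _), neg_zero, add_zero]
  · unfold cf
    rw [hsplit]
    simp only [hT, hF, chi, prod_empty, mul_one, add_neg_cancel, sum_const_zero]
  · rw [lin_eq, lin_eq, hsplit]
    unfold cf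
    simp only [chi, prod_empty, mul_one, hT, hF, ← sum_add_distrib, mul_sum]
    refine sum_congr rfl fun y _ => ?_
    simp [tot, Fintype.sum_sum_type, he, sgn_not]
    simp [sgn]
    ring

lemma seed_numeric {j : ℕ} (hj : 0 < j) :
    4 * (100 * j) * 2 ^ (99 * j) < 2 ^ (4 * (100 * j)) ∧
    (2 * (4 * (100 * j) * 2 ^ (99 * j)) + 1) ^
        Fintype.card {S : Finset (Fin (100 * j)) // 56 * j < S.card}
      < 2 ^ (4 * (100 * j) * 2 ^ (99 * j)) := by
  set m := 100 * j with hm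
  set a := 4 * m * 2 ^ (99 * j) with ha
  have hpow : ∀ i : ℕ, i < 2 ^ i := fun i => Nat.lt_two_pow_self
  have hak : a < 2 ^ (4 * m) := by
    have h1 : 4 * m * 2 ^ (99 * j) < 2 ^ (4 * m - 99 * j) * 2 ^ (99 * j) := by
      refine Nat.mul_lt_mul_of_pos_right ?_ (by positivity)
      calc 4 * m < 2 ^ (4 * j) * 2 ^ (100 * j) := by
            have := hpow (100 * j)
            have : 4 ≤ 2 ^ (4 * j) := by
              calc 4 = 2 ^ 2 := rfl
                _ ≤ _ := Nat.pow_le_pow_right (by norm_num) (by omega)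
            calc 4 * m < 4 * 2 ^ (100 * j) := by omega
              _ ≤ _ := Nat.mul_le_mul_right _ this
        _ = 2 ^ (104 * j) := by rw [← pow_add]; ring_nf
        _ ≤ _ := Nat.pow_le_pow_right (by norm_num) (by omega)
    rw [← pow_add, show 4 * m - 99 * j + 99 * j = 4 * m by omega] at h1
    exact h1
  have hI : (2 * a + 1) ^ Fintype.card {S : Finset (Fin m) // 56 * j < S.card} < 2 ^ a := by
    refine lt_of_le_of_lt (Nat.pow_le_pow_right (by omega) (high_count j)) ?_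
    rw [show a = 4 * m * 2 ^ (99 * j) from rfl, pow_mul (2:ℕ) (4 * m)]
    refine Nat.pow_lt_pow_left ?_ (by positivity)
    show 2 * a + 1 < 2 ^ (4 * m)
    have h1 : 4 * a + 4 ≤ 2 ^ (4 * m) := by
      have hb1 : a + 1 ≤ 2 ^ (4 * m - 2) := by
        have h2 : 4 * m < 2 ^ (104 * j) := by
          calc 4 * m < 4 * 2 ^ (100 * j) := by have := hpow (100 * j); omega
            _ ≤ 2 ^ (4 * j) * 2 ^ (100 * j) := Nat.mul_le_mul_right _ (by
              calc 4 = 2 ^ 2 := rfl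
                _ ≤ _ := Nat.pow_le_pow_right (by norm_num) (by omega))
            _ = _ := by rw [← pow_add]; ring_nf
        calc a + 1 ≤ (4 * m + 1) * 2 ^ (99 * j) := by
              rw [ha, add_mul, one_mul]; exact Nat.add_le_add_left (Nat.one_le_two_pow) _
          _ ≤ 2 ^ (104 * j) * 2 ^ (99 * j) := Nat.mul_le_mul_right _ h2
          _ = 2 ^ (203 * j) := by rw [← pow_add]; ring_nf
          _ ≤ _ := Nat.pow_le_pow_right (by norm_num) (by omega)
      have h3 : 2 ^ (4 * m) = 4 * 2 ^ (4 * m - 2) := by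
        rw [show (4:ℕ) = 2 ^ 2 from rfl, ← pow_add]; congr 1; norm_num; omega
      omega
    omega
  exact ⟨hak, hI⟩

/-- Mean square error of clipping in one block. -/
lemma clip_err {ι : Type} [Fintype ι] [DecidableEq ι] (J : Finset ι) (e j l : ℕ)
    (hJ : J.card = 5000 * j) (hl : Fintype.card ι - J.card = l) (hl4 : 4 * l ≤ j)
    (he : 4 ^ 10 * (5000 * j) ≤ 4 ^ e) :
    ∑ y : ι → Bool, (tot y - ((max (-(2:ℤ) ^ e) (min (part J y) (2 ^ e)) : ℤ) : ℝ)) ^ 2
      ≤ 0.000107 * (5000 * (j:ℝ)) * 2 ^ Fintype.card ι := by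
  set C : ℤ := 2 ^ e with hC
  have hCp : (0:ℤ) < C := by rw [hC]; positivity
  have hCR : (0:ℝ) < (C:ℝ) ^ 2 := by
    have : (0:ℝ) < (C:ℝ) := by exact_mod_cast hCp
    positivity
  have hCsq : (4:ℝ) ^ 10 * (5000 * (j:ℝ)) ≤ (C:ℝ) ^ 2 := by
    have h : ((4 ^ 10 * (5000 * j) : ℕ) : ℝ) ≤ ((4 ^ e : ℕ) : ℝ) := Nat.cast_le.mpr he
    rw [hC]; push_cast at h ⊢
    rw [← pow_mul, mul_comm e 2, pow_mul]
    norm_num at h ⊢
    linarith
  have hpt : ∀ y : ι → Bool, (tot y - ((max (-C) (min (part J y) C) : ℤ) : ℝ)) ^ 2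
      ≤ 2 * (∑ i ∈ univ \ J, sgn (y i)) ^ 2 + 2 * ((∑ i ∈ J, sgn (y i)) ^ 4 / (C:ℝ) ^ 2) := by
    intro y
    have hs : tot y = (∑ i ∈ univ \ J, sgn (y i)) + ∑ i ∈ J, sgn (y i) :=
      (sum_sdiff (subset_univ _)).symm
    have hz : (part J y - max (-C) (min (part J y) C)) ^ 2 * C ^ 2 ≤ part J y ^ 4 := by
      generalize part J y = z
      rcases le_or_gt |z| C with hle | hgt
      · rw [show max (-C) (min z C) = z by have := abs_le.mp hle; omega, sub_self]
        simp; positivity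
      · have h1 : (z - max (-C) (min z C)) ^ 2 ≤ z ^ 2 := by
          rcases lt_abs.mp hgt with h | h
          · rw [show max (-C) (min z C) = C by omega]; nlinarith
          · rw [show max (-C) (min z C) = -C by omega]; nlinarith
        have h2 : C ^ 2 ≤ z ^ 2 := by
          rw [← sq_abs z]; exact pow_le_pow_left₀ hCp.le hgt.le 2
        calc (z - max (-C) (min z C)) ^ 2 * C ^ 2 ≤ z ^ 2 * z ^ 2 :=
              mul_le_mul h1 h2 (sq_nonneg C) (sq_nonneg z)
          _ = z ^ 4 := by ring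
    have hcl : (((part J y : ℤ) : ℝ) - ((max (-C) (min (part J y) C) : ℤ) : ℝ)) ^ 2
        ≤ ((part J y : ℤ) : ℝ) ^ 4 / (C:ℝ) ^ 2 := by
      rw [le_div_iff₀ hCR]; exact_mod_cast hz
    rw [part_cast] at hcl
    rw [hs]
    generalize ((max (-C) (min (part J y) C) : ℤ) : ℝ) = w at hcl ⊢
    generalize (∑ i ∈ univ \ J, sgn (y i)) = u at ⊢
    generalize (∑ i ∈ J, sgn (y i)) = v at hcl ⊢
    nlinarith only [hcl, sq_nonneg (u - (v - w))]
  obtain ⟨m2, -⟩ := part_moments (univ \ J : Finset ι)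
  obtain ⟨-, m4⟩ := part_moments J
  rw [hJ] at m4
  rw [card_sdiff_of_subset (subset_univ _), card_univ, hl] at m2
  push_cast at m4
  refine (sum_le_sum fun y _ => hpt y).trans ?_
  rw [sum_add_distrib, ← mul_sum, ← mul_sum, ← sum_div, m2]
  have hp : (0:ℝ) < 2 ^ Fintype.card ι := by positivity
  have hfour : (∑ y : ι → Bool, (∑ i ∈ J, sgn (y i)) ^ 4) / (C:ℝ) ^ 2
      ≤ 3 * (5000 * (j:ℝ)) / 4 ^ 10 * 2 ^ Fintype.card ι := by
    rw [div_le_iff₀ hCR]
    refine m4.trans ?_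
    refine le_trans (le_of_eq ?_) (mul_le_mul_of_nonneg_left hCsq (by positivity))
    field_simp
  have hlj : 4 * (l:ℝ) ≤ j := by exact_mod_cast hl4
  have h1 : 4 * (l:ℝ) * 2 ^ Fintype.card ι ≤ (j:ℝ) * 2 ^ Fintype.card ι :=
    mul_le_mul_of_nonneg_right hlj hp.le
  have h2 : 0 ≤ (j:ℝ) * 2 ^ Fintype.card ι := by positivity
  norm_num at hfour ⊢
  linarith only [h1, h2, hfour]

/-- The closing arithmetic. -/
lemma seed_arith {Mj t Q L L' z D : ℝ} (hQ : 0 < Q) (hMj : 1000000 ≤ Mj)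
    (ht : t ^ 2 ≤ Mj / 250000) (hlin' : L' = 2 * (z + L)) (hz : -Q ≤ z)
    (hlin : L ≥ (Real.sqrt (2 * 0.314 * Mj) - 2 * Real.sqrt (0.000107 * Mj) - t - 1) * Q)
    (hD : D ≤ 0.58005 * Mj + 1) :
    0 < L' ∧ D * (2 * Q) ^ 2 < L' ^ 2 := by
  set R := Real.sqrt Mj
  have hR0 : 0 ≤ R := Real.sqrt_nonneg _
  have hM0 : 0 ≤ Mj := by linarith
  have hRsq : R ^ 2 = Mj := Real.sq_sqrt hM0
  have hR70 : 1000 ≤ R := Real.le_sqrt_of_sq_le (by linarith)
  have s1 : 0.792 * R ≤ Real.sqrt (2 * 0.314 * Mj) := by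
    refine Real.le_sqrt_of_sq_le ?_
    rw [mul_pow, hRsq]; nlinarith only [hM0]
  have s2 : Real.sqrt (0.000107 * Mj) ≤ 0.01035 * R := by
    rw [Real.sqrt_le_left (by positivity), mul_pow, hRsq]; nlinarith only [hM0]
  have s3 : t ≤ 0.002 * R := by
    have h : |t| ≤ 0.002 * R := by
      rw [← Real.sqrt_sq_eq_abs, Real.sqrt_le_left (by positivity), mul_pow, hRsq]
      norm_num at ht ⊢
      linarith only [ht]
    exact (le_abs_self _).trans h
  have h1 : (0.7693 * R - 1) * Q ≤ L :=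
    le_trans (mul_le_mul_of_nonneg_right (by linarith) hQ.le) hlin
  have hmain : (0.7693 * R - 2) * (2 * Q) ≤ L' := by
    rw [hlin']; nlinarith only [h1, hz]
  have hpos : 0 < (0.7693 * R - 2) * (2 * Q) := mul_pos (by linarith) (by positivity)
  refine ⟨lt_of_lt_of_le hpos hmain, ?_⟩
  refine lt_of_lt_of_le ?_ (pow_le_pow_left₀ hpos.le hmain 2)
  rw [mul_pow (0.7693 * R - 2)]
  refine mul_lt_mul_of_pos_right ?_ (by positivity)
  nlinarith only [hD, hRsq, hR70, mul_le_mul_of_nonneg_left hR70 hR0]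

/-- The seed with all parameters explicit. -/
theorem seed_core {r N e b κ j l : ℕ} (c : ℕ → ℤ) (δ : ℝ) (hr200 : 200 ≤ r) (hj : 0 < j)
    (hev : Even r) (hN : 2 * N ≤ r / 3)
    (hb : r * 2 ^ e ≤ 2 ^ b) (hl : l = κ + 2 * N * b + 1) (hl4 : 4 * l ≤ j)
    (he : 4 ^ 10 * (5000 * j) ≤ 4 ^ e)
    (hP : ∀ y : ℝ, |y| ≤ 1 →
      |(∑ i ∈ range (2 * N + 1), (c i : ℝ) * y ^ i) / 2 ^ κ| ≤ 1 ∧
      |y| - δ ≤ y * ((∑ i ∈ range (2 * N + 1), (c i : ℝ) * y ^ i) / 2 ^ κ))
    (hδ : ((2:ℝ) ^ b * δ) ^ 2 ≤ (r:ℝ) * (5000 * j) / 250000)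
    (hL : 4 * r * 2 ^ e * (50 * ((100 * j + 1) * (256 * 2 ^ l * (16 * (100 * j) ^ 2) * 2 ^ (99 * j))))
      ≤ 2 ^ (100 * j)) :
    ∃ (ι : Type) (_ : Fintype ι) (_ : DecidableEq ι) (f : (ι → Bool) → Bool) (D : ℕ),
      0 < D ∧ DegLE (re f) D ∧ cf (re f) ∅ = 0 ∧ 0 < lin (re f) ∧
        (D:ℝ) * ((2:ℝ) ^ Fintype.card ι) ^ 2 < lin (re f) ^ 2 := by
  classical
  have hr : 0 < r := by omega
  set q := 2 ^ l with hq
  have : NeZero q := ⟨by rw [hq]; positivity⟩
  set m := 100 * j with hm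
  set a := 4 * m * 2 ^ (99 * j) with ha
  set T := 256 * q * (16 * m ^ 2) * 2 ^ (99 * j) with hT
  obtain ⟨hak, hI⟩ := seed_numeric hj
  obtain ⟨π₀, s₀, -, h0tot, h0good, h0cnt⟩ := greedy m (56 * j) q a (4 * m) T (by omega) hak
    (le_of_eq (by rw [hT, ha]; ring)) hI univ
  set D0 := 50 * (56 * j) + m + l with hD0
  set M := 50 * m + l with hM
  set ε := 50 * ((m + 1) * T) * 2 ^ M / 2 ^ m with hε
  obtain ⟨B⟩ : Nonempty (Block q D0 l ε M (50 * m)) := exists_block m (56 * j) l q ((m + 1) * T)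
    hq π₀ s₀ (fun x g h => (h0tot x g h).2) h0good h0cnt 50
  have hMι : Fintype.card B.ι = M := B.card_ι
  set C : ℤ := 2 ^ e with hC
  set clip : ℤ → ℤ := fun z => max (-C) (min z C) with hclip
  have hC0 : 0 ≤ C := by rw [hC]; positivity
  have hclipabs : ∀ z, |clip z| ≤ C := fun z => abs_le.mpr
    ⟨le_max_left _ _, max_le (by omega) (min_le_right _ _)⟩
  set π : (Fin r × B.ι → Bool) → (Fin r → B.K) := fun x i => B.π (blk x i)
  set s : (Fin r × B.ι → Bool) → ZMod q := fun x => ∑ i, B.s (blk x i)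
  have hgood : ∀ k, Good (r * D0) π s k := fun k => good_prod B.π B.s B.good hr k
  set v : (B.ι → Bool) → ℤ := fun y => clip (B.u (B.π y))
  set V : (Fin r → B.K) → ℤ := fun k => ∑ i, clip (B.u (k i))
  set P : ℝ → ℝ := fun y => (∑ i ∈ range (2 * N + 1), (c i : ℝ) * y ^ i) / 2 ^ κ with hPdef
  set Num : (Fin r → B.K) → ℤ := fun k =>
    ∑ i ∈ range (2 * N + 1), c i * V k ^ i * 2 ^ (b * (2 * N - i))
  have hVabs : ∀ k, |((V k : ℤ) : ℝ) / 2 ^ b| ≤ 1 := by
    intro k
    rw [abs_div, abs_of_pos (by positivity : (0:ℝ) < 2 ^ b), div_le_one (by positivity)]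
    have h1 : |V k| ≤ 2 ^ b := by
      calc |V k| ≤ ∑ i, |clip (B.u (k i))| := abs_sum_le_sum_abs _ _
        _ ≤ ∑ _i : Fin r, C := sum_le_sum fun i _ => hclipabs _
        _ = ((r * 2 ^ e : ℕ) : ℤ) := by simp [hC]
        _ ≤ ((2 ^ b : ℕ) : ℤ) := by exact_mod_cast hb
        _ = _ := by push_cast; ring
    exact_mod_cast h1
  have hNum : ∀ k, ((Num k : ℤ) : ℝ) = P ((V k : ℝ) / 2 ^ b) * 2 ^ (l - 1) := by
    intro k
    rw [hl, Nat.add_sub_cancel, pow_add, hPdef]
    simp only [Num, Int.cast_sum, sum_div, sum_mul]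
    refine sum_congr rfl fun i hi => ?_
    have hi' : i ≤ 2 * N := Nat.lt_succ_iff.mp (mem_range.mp hi)
    have e1 : 2 * N * b = b * i + b * (2 * N - i) := by
      rw [← Nat.mul_add, Nat.add_sub_cancel' hi', Nat.mul_comm]
    rw [e1, pow_add, div_pow, ← pow_mul]
    push_cast
    field_simp
  set cn : (Fin r → B.K) → ℕ := fun k => (Num k + 2 ^ (l - 1)).toNat
  have hl1 : 2 * 2 ^ (l - 1) = q := by rw [← pow_succ', hq]; congr 1; omega
  have hNb : ∀ k, |Num k| ≤ 2 ^ (l - 1) := by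
    intro k
    have h : |((Num k : ℤ) : ℝ)| ≤ (2:ℝ) ^ (l - 1) := by
      rw [hNum, abs_mul, abs_of_pos (by positivity : (0:ℝ) < 2 ^ (l - 1))]
      exact mul_le_of_le_one_left (by positivity) (hP _ (hVabs k)).1
    exact_mod_cast h
  have hcn : ∀ k, cn k ≤ q := by
    intro k
    have := abs_le.mp (hNb k)
    have h2 : (2:ℤ) * 2 ^ (l - 1) = q := by exact_mod_cast hl1
    simp only [cn, Int.toNat_le]
    linarith
  have hFval : ∀ k, 2 * (cn k : ℝ) / q - 1 = P ((V k : ℝ) / 2 ^ b) := by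
    intro k
    have h0 : 0 ≤ Num k + 2 ^ (l - 1) := by linarith [(abs_le.mp (hNb k)).1]
    have h1 : (cn k : ℝ) = ((Num k : ℤ) : ℝ) + 2 ^ (l - 1) := by
      have h : ((cn k : ℕ) : ℤ) = Num k + 2 ^ (l - 1) := Int.toNat_of_nonneg h0
      have h' := congrArg (fun z : ℤ => (z:ℝ)) h
      push_cast at h'
      exact h'
    have h2 : (q:ℝ) = 2 * 2 ^ (l - 1) := by exact_mod_cast hl1.symm
    rw [h1, hNum, h2]
    field_simp
    ring
  set f : (Fin r × B.ι → Bool) → Bool := fun x => decide ((s x).val < cn (π x))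
  set F : (Fin r × B.ι → Bool) → ℝ := fun x => P ((V (π x) : ℝ) / 2 ^ b)
  have hround : ∀ (φ : (Fin r → B.K) → ℝ) (S : Finset (Fin r × B.ι)), (S = ∅ ∨ r * D0 < S.card) →
      ∑ x, re f x * φ (π x) * chi S x = ∑ x, F x * φ (π x) * chi S x := by
    intro φ S hS
    simp only [re, f]
    rw [round_eq π s hgood cn hcn φ hS]
    simp only [hFval, F]
  set D := r * D0 with hD
  have hDF : 2 * N * M ≤ D := by
    have h1 : M ≤ 3 * D0 := by omega
    have h2 : 2 * N * 3 ≤ r := by omega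
    calc 2 * N * M ≤ 2 * N * (3 * D0) := Nat.mul_le_mul_left _ h1
      _ = (2 * N * 3) * D0 := by ring
      _ ≤ _ := Nat.mul_le_mul_right _ h2
  have hdeg : DegLE (re f) D := by
    intro S hS
    have h := hround (fun _ => 1) S (Or.inr hS)
    simp only [mul_one] at h
    rw [cf, h]
    simp only [F, hPdef, V, div_pow]
    simp only [Int.cast_sum, Fintype.sum_pow, sum_mul, mul_sum, sum_div]
    rw [sum_comm]
    refine sum_eq_zero fun i hi => ?_
    rw [sum_comm]
    refine sum_eq_zero fun φ _ => ?_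
    have hd := degLE_dep (T := (univ.image φ) ×ˢ (univ : Finset B.ι)) (d := D)
      (f := fun x : Fin r × B.ι → Bool =>
        (c i : ℝ) * ((∏ t, ((clip (B.u (π x (φ t))) : ℤ) : ℝ)) / (2 ^ b) ^ i) / 2 ^ κ)
      (by
        rw [card_product, card_univ, hMι]
        refine le_trans (Nat.mul_le_mul_right _ ?_) hDF
        refine card_image_le.trans ?_
        simp only [card_univ, Fintype.card_fin]
        exact Nat.lt_succ_iff.mp (mem_range.mp hi))
      (fun x y hxy => by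
        have : ∀ t, π x (φ t) = π y (φ t) := fun t => congrArg B.π (funext fun k =>
          hxy (φ t, k) (mem_product.mpr ⟨mem_image_of_mem φ (mem_univ t), mem_univ k⟩))
        simp only [this]) S hS
    exact hd
  -- the linear sum
  set n := r * M with hn
  set Q : ℝ := (2:ℝ) ^ n with hQ
  have hQ0 : 0 < Q := by positivity
  have hcard : Fintype.card (Fin r × B.ι) = n := by simp [hMι, hn]
  have hcardX : (Fintype.card (Fin r × B.ι → Bool) : ℝ) = Q := by
    simp [hMι, hQ, hn]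
  set Vx : (Fin r × B.ι → Bool) → ℝ := fun x => (V (π x) : ℝ)
  set W : (Fin r × B.ι → Bool) → ℝ := fun x => ∑ i, ((clip (part B.J (blk x i)) : ℤ) : ℝ)
  have hsig : ∀ b', |sgn b'| = 1 := fun b' => by cases b' <;> norm_num [sgn]
  have hfa : ∀ x, |re f x| ≤ 1 := fun x => (hsig _).le
  -- stopped blocks
  have hWV : ∑ x, |W x - Vx x| ≤ Q / 2 := by
    have h1 : ∀ x, |W x - Vx x| ≤ ∑ i, 2 * (C:ℝ) *
        (if B.u (B.π (blk x i)) ≠ part B.J (blk x i) then 1 else 0) := by
      intro x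
      simp only [W, Vx, V, Int.cast_sum, ← sum_sub_distrib]
      refine (abs_sum_le_sum_abs _ _).trans (sum_le_sum fun i _ => ?_)
      by_cases h : B.u (B.π (blk x i)) = part B.J (blk x i)
      · simp [π, h]
      · rw [if_pos h, mul_one]
        refine (abs_sub _ _).trans ?_
        have a1 : |((clip (part B.J (blk x i)) : ℤ) : ℝ)| ≤ (C:ℝ) := by exact_mod_cast hclipabs _
        have a2 : |((clip (B.u (π x i)) : ℤ) : ℝ)| ≤ (C:ℝ) := by exact_mod_cast hclipabs _
        linarith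
    refine le_of_mul_le_mul_left ?_ (by positivity : (0:ℝ) < 2 ^ M)
    refine (mul_le_mul_of_nonneg_left (sum_le_sum fun x _ => h1 x) (by positivity)).trans ?_
    rw [sum_comm, mul_sum]
    simp only [← mul_sum, mul_left_comm ((2:ℝ) ^ M) (2 * (C:ℝ))]
    have hb' : ∀ i : Fin r, (2:ℝ) ^ M * ∑ x : Fin r × B.ι → Bool,
        (if B.u (B.π (blk x i)) ≠ part B.J (blk x i) then (1:ℝ) else 0) ≤ Q * ε := by
      intro i
      have := sum_blk i (fun y => if B.u (B.π y) ≠ part B.J y then (1:ℝ) else 0)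
      rw [hMι] at this
      rw [this, sum_boole, hQ, hn]
      exact mul_le_mul_of_nonneg_left (by exact_mod_cast B.bad) (by positivity)
    refine (mul_le_mul_of_nonneg_left ((mul_sum _ _ _).trans_le (sum_le_sum fun i _ => hb' i))
      (mul_nonneg zero_le_two (Int.cast_nonneg hC0) : (0:ℝ) ≤ 2 * (C:ℝ))).trans ?_
    rw [sum_const, card_univ, Fintype.card_fin, nsmul_eq_mul]
    have h4 : 4 * r * 2 ^ e * ε ≤ 2 ^ M := by
      refine Nat.le_of_mul_le_mul_right ?_ (by positivity : 0 < 2 ^ m)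
      calc 4 * r * 2 ^ e * ε * 2 ^ m
          ≤ 4 * r * 2 ^ e * (50 * ((m + 1) * T) * 2 ^ (50 * m + l)) := by
            rw [mul_assoc]; exact Nat.mul_le_mul_left _ (Nat.div_mul_le_self _ _)
        _ = (4 * r * 2 ^ e * (50 * ((m + 1) * T))) * 2 ^ M := by rw [hM]; ring
        _ ≤ 2 ^ m * 2 ^ M := Nat.mul_le_mul_right _ (by rw [hT, hq]; exact hL)
        _ = _ := by ring
    have h5 : 4 * (r:ℝ) * 2 ^ e * ε ≤ 2 ^ M := by exact_mod_cast h4
    rw [hC]; push_cast
    nlinarith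
  set Mj : ℝ := (r:ℝ) * (5000 * j) with hMj
  have hjr : (1:ℝ) ≤ j := by exact_mod_cast hj
  have hrr : (1:ℝ) ≤ r := by exact_mod_cast hr
  have hl4' : 4 * (l:ℝ) ≤ j := by exact_mod_cast hl4
  have hTW : ∑ x, |tot x - W x| ≤ Real.sqrt (0.000107 * Mj) * Q := by
    set g : (B.ι → Bool) → ℝ := fun y => tot y - ((clip (part B.J y) : ℤ) : ℝ)
    have hgodd : ∀ y, g (fun i => !y i) = - g y := by
      intro y
      have : ∀ z, clip (-z) = - clip z := fun z => by simp only [hclip]; omega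
      simp only [g, tot_neg, part_neg, this, Int.cast_neg]; ring
    have heq : ∀ x, tot x - W x = ∑ i, g (blk x i) := by
      intro x
      simp only [g, W, sum_sub_distrib]
      congr 1
      simp only [tot, blk, Fintype.sum_prod_type]
    have hg2 : ∑ y, g y ^ 2 ≤ 0.000107 * (5000 * (j:ℝ)) * 2 ^ M := by
      have h := clip_err B.J e j l (by rw [B.card_J, hm]; ring) (by rw [hMι, B.card_J]; omega) hl4 he
      rw [hMι] at h
      exact h
    have h2 := sum_sq_blocks (r := r) g hgodd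
    rw [hMι] at h2
    simp only [← heq, ← hn, ← hQ] at h2
    have hp : (0:ℝ) < 2 ^ M := by positivity
    have h3 : ∑ x, (tot x - W x) ^ 2 ≤ 0.000107 * Mj * Q := by
      refine le_of_mul_le_mul_left ?_ hp
      rw [h2]
      refine (mul_le_mul_of_nonneg_left hg2 (by positivity)).trans (le_of_eq ?_)
      rw [hMj]; ring
    have hcs := sq_sum_le_card_mul_sum_sq (s := univ) (f := fun x => |tot x - W x|)
    simp only [card_univ, sq_abs, hcardX] at hcs
    have h4 : 0 ≤ 0.000107 * Mj := by positivity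
    refine le_of_pow_le_pow_left₀ two_ne_zero (by positivity) (hcs.trans ?_)
    rw [mul_pow, Real.sq_sqrt h4]
    refine (mul_le_mul_of_nonneg_left h3 hQ0.le).trans (le_of_eq ?_)
    ring
  have hTV : ∑ x, |tot x - Vx x| ≤ Real.sqrt (0.000107 * Mj) * Q + Q / 2 := by
    refine (sum_le_sum fun x _ => abs_sub_le (tot x) (W x) (Vx x)).trans ?_
    rw [sum_add_distrib]
    exact add_le_add hTW hWV
  have habs : Real.sqrt (2 * 0.314 * Mj) * Q ≤ ∑ x : Fin r × B.ι → Bool, |tot x| := by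
    obtain ⟨k, hk⟩ : Even n := hev.mul_right M
    have hk2 : n = 2 * k := by omega
    have hk20 : 20 ≤ k := by
      have hM5 : 5000 ≤ M := by omega
      have : 1 * M ≤ n := Nat.mul_le_mul_right M hr
      omega
    have hkk : Mj ≤ 2 * (k:ℝ) := by
      have h : r * (5000 * j) ≤ 2 * k := by
        rw [← hk2, hn]; exact Nat.mul_le_mul_left _ (by omega)
      rw [hMj]; exact_mod_cast h
    rw [abs_tot k (hcard.trans hk2)]
    refine le_of_pow_le_pow_left₀ two_ne_zero (by positivity) ?_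
    rw [mul_pow, Real.sq_sqrt (by positivity)]
    have h16 : Q ^ 2 = (16:ℝ) ^ k := by
      rw [hQ, hk2, ← pow_mul, show 2 * k * 2 = 4 * k by ring, pow_mul]; norm_num
    calc 2 * 0.314 * Mj * Q ^ 2 ≤ 2 * 0.314 * (2 * (k:ℝ)) * 16 ^ k := by
          rw [h16]; exact mul_le_mul_of_nonneg_right (by linarith) (by positivity)
      _ = 4 * (k:ℝ) * (0.314 * 16 ^ k) := by ring
      _ ≤ 4 * (k:ℝ) * (k * ((2 * k).choose k : ℝ) ^ 2) :=
          mul_le_mul_of_nonneg_left (central_lower hk20) (by positivity)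
      _ = _ := by ring
  have hFV : ∑ x, |Vx x| - (2:ℝ) ^ b * δ * Q ≤ ∑ x, re f x * Vx x := by
    have h := hround (fun k => (V k : ℝ)) ∅ (Or.inl rfl)
    simp only [chi, prod_empty, mul_one] at h
    rw [h]
    calc ∑ x, |Vx x| - (2:ℝ) ^ b * δ * Q = ∑ x, (|Vx x| - 2 ^ b * δ) := by
          rw [sum_sub_distrib, sum_const, card_univ, nsmul_eq_mul, hcardX]; ring
      _ ≤ _ := by
          refine sum_le_sum fun x _ => ?_
          have h1 := mul_le_mul_of_nonneg_left (hP _ (hVabs (π x))).2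
            (by positivity : (0:ℝ) ≤ 2 ^ b)
          rw [abs_div, abs_of_pos (by positivity : (0:ℝ) < 2 ^ b), mul_sub,
            mul_div_cancel₀ _ (by positivity : (2:ℝ) ^ b ≠ 0), ← mul_assoc,
            mul_div_cancel₀ _ (by positivity : (2:ℝ) ^ b ≠ 0)] at h1
          simp only [F, hPdef, Vx]
          linarith
  have hlin : lin (re f) ≥ (Real.sqrt (2 * 0.314 * Mj) - 2 * Real.sqrt (0.000107 * Mj)
      - (2:ℝ) ^ b * δ - 1) * Q := by
    have h1 : ∑ x : Fin r × B.ι → Bool, |tot x| ≤ ∑ x, |Vx x| + ∑ x, |tot x - Vx x| := by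
      rw [← sum_add_distrib]
      exact sum_le_sum fun x _ => by
        have := abs_add_le (Vx x) (tot x - Vx x)
        simpa using this
    have h2 : ∑ x, re f x * Vx x ≤ ∑ x, re f x * tot x + ∑ x, |tot x - Vx x| := by
      rw [← sum_add_distrib]
      refine sum_le_sum fun x _ => ?_
      have : |re f x * (tot x - Vx x)| ≤ |tot x - Vx x| := by
        rw [abs_mul]; exact mul_le_of_le_one_left (abs_nonneg _) (hfa x)
      linarith [(abs_le.mp this).1]
    rw [← lin_eq (re f)] at h2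
    nlinarith
  obtain ⟨hdeg', hbal, hlin'⟩ := ext1_spec f hdeg
  refine ⟨Unit ⊕ (Fin r × B.ι), inferInstance, inferInstance, ext1 f, D + 1, Nat.succ_pos _,
    hdeg', hbal, ?_⟩
  have hcf : -Q ≤ cf (re f) ∅ := by
    have : |cf (re f) ∅| ≤ Q := by
      refine (abs_sum_le_sum_abs _ _).trans ((sum_le_sum fun x _ =>
        (show |re f x * chi ∅ x| ≤ (1:ℝ) by simpa [chi] using hfa x)).trans ?_)
      rw [sum_const, card_univ, nsmul_eq_mul, mul_one, hcardX]
    linarith [(abs_le.mp this).1]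
  have hQ2 : (2:ℝ) ^ Fintype.card (Unit ⊕ (Fin r × B.ι)) = 2 * Q := by
    rw [Fintype.card_sum, Fintype.card_unit, hcard, pow_add, pow_one]
  rw [hQ2]
  refine seed_arith (Mj := Mj) (t := (2:ℝ) ^ b * δ) hQ0 ?_ ?_ hlin' hcf hlin ?_
  · have h200 : (200:ℝ) ≤ r := by exact_mod_cast hr200
    rw [hMj]; nlinarith only [hjr, h200]
  · rw [hMj]; exact hδ
  · rw [hMj, hD, hD0, hm]; push_cast
    have h : 0 ≤ (r:ℝ) * ((j:ℝ) - 4 * l) := mul_nonneg (by linarith) (by linarith)
    nlinarith only [h]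

end Vale.Agent.P047
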