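import Vale.Agent.P047.System

set_option linter.unusedSectionVars false

namespace Vale.Agent.P047

open Finset

variable {ι : Type} [Fintype ι] [DecidableEq ι] {r : ℕ}

/-- Block `b` of a point. -/
def blk (x : Fin r × ι → Bool) (b : Fin r) : ι → Bool := fun i => x (b, i)

/-- A block and the remaining blocks. -/
def splitEquiv (b : Fin r) :
    (Fin r × ι → Bool) ≃ (ι → Bool) × ({c : Fin r // c ≠ b} → ι → Bool) :=
  (Equiv.curry (Fin r) ι Bool).trans (Equiv.funSplitAt b (ι → Bool))

lemma sum_split (b : Fin r) (f : (Fin r × ι → Bool) → ℝ) :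
    ∑ x, f x = ∑ z : {c : Fin r // c ≠ b} → ι → Bool, ∑ y, f ((splitEquiv b).symm (y, z)) := by
  rw [← (splitEquiv b).symm.sum_comp, Fintype.sum_prod_type, sum_comm]

lemma blk_split (b : Fin r) (y : ι → Bool) (z : {c : Fin r // c ≠ b} → ι → Bool) :
    blk ((splitEquiv b).symm (y, z)) b = y := by
  funext i; simp [blk, splitEquiv]

lemma blk_split_ne (b : Fin r) (y : ι → Bool) (z : {c : Fin r // c ≠ b} → ι → Bool)
    {c : Fin r} (h : c ≠ b) : blk ((splitEquiv b).symm (y, z)) c = z ⟨c, h⟩ := by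
  funext i; simp [blk, splitEquiv, h]

lemma sum_blk (b : Fin r) (g : (ι → Bool) → ℝ) :
    (2:ℝ) ^ Fintype.card ι * ∑ x : Fin r × ι → Bool, g (blk x b)
      = 2 ^ (r * Fintype.card ι) * ∑ y, g y := by
  rw [sum_split b]
  simp only [blk_split, sum_const, nsmul_eq_mul, ← mul_assoc]
  congr 1
  have h := Fintype.card_congr (splitEquiv (ι := ι) b)
  rw [Fintype.card_prod, Fintype.card_fun, Fintype.card_bool, Fintype.card_prod, Fintype.card_fin,
    Fintype.card_fun (α := ι), Fintype.card_bool, ← card_univ (α := {c : Fin r // c ≠ b} → ι → Bool)] at h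
  exact_mod_cast h.symm

lemma sum_cross {b c : Fin r} (hbc : c ≠ b) (g h : (ι → Bool) → ℝ)
    (hg : ∀ y, g (fun i => !y i) = - g y) :
    ∑ x : Fin r × ι → Bool, g (blk x b) * h (blk x c) = 0 := by
  rw [sum_split b]
  refine sum_eq_zero fun z _ => ?_
  simp only [blk_split, blk_split_ne _ _ _ hbc, ← sum_mul]
  refine mul_eq_zero_of_left ?_ _
  let e : (ι → Bool) ≃ (ι → Bool) := Function.Involutive.toPerm
    (fun y i => !y i) (fun y => by funext i; simp)
  have hs : ∑ y, g y = - ∑ y, g y := by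
    conv_lhs => rw [← e.sum_comp]
    rw [← sum_neg_distrib]
    exact sum_congr rfl fun y _ => hg y
  linarith

lemma sum_sq_blocks (g : (ι → Bool) → ℝ) (hg : ∀ y, g (fun i => !y i) = - g y) :
    (2:ℝ) ^ Fintype.card ι * ∑ x : Fin r × ι → Bool, (∑ b, g (blk x b)) ^ 2
      = r * 2 ^ (r * Fintype.card ι) * ∑ y, g y ^ 2 := by
  simp only [sq, sum_mul_sum]
  rw [sum_comm, mul_sum]
  have : ∀ b : Fin r, (2:ℝ) ^ Fintype.card ι * ∑ x : Fin r × ι → Bool, ∑ c, g (blk x b) * g (blk x c)
      = 2 ^ (r * Fintype.card ι) * ∑ y, g y * g y := by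
    intro b
    rw [sum_comm, sum_eq_single b (fun c _ hc => sum_cross hc g g hg) (by simp)]
    exact sum_blk b fun y => g y * g y
  simp only [this, sum_const, card_univ, Fintype.card_fin, nsmul_eq_mul]
  ring

/-- Labels of blocks add up. -/
lemma good_prod {q D : ℕ} {K : Type} [DecidableEq K] (π : (ι → Bool) → K)
    (s : (ι → Bool) → ZMod q) (hgood : ∀ k, Good D π s k) (hr : 0 < r) (k : Fin r → K) :
    Good (r * D) (fun x : Fin r × ι → Bool => fun b => π (blk x b))
      (fun x => ∑ b, s (blk x b)) k := by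
  intro S hS a
  obtain ⟨b0, hb0⟩ : ∃ b, slot S b = ∅ ∨ D < (slot S b).card := by
    rcases hS with rfl | hS
    · exact ⟨⟨0, hr⟩, Or.inl (by simp [slot])⟩
    · by_contra hc
      push Not at hc
      have h1 : ∑ b, (slot S b).card ≤ ∑ _b : Fin r, D := sum_le_sum fun b _ => (hc b).2
      rw [← card_eq_sum_slot, sum_const, card_univ, Fintype.card_fin, smul_eq_mul] at h1
      omega
  simp only [sum_filter]
  rw [sum_split b0, sum_split b0, mul_sum]
  refine sum_congr rfl fun z _ => ?_
  by_cases hz : ∀ c : {c : Fin r // c ≠ b0}, π (z c) = k c.1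
  · have hk : ∀ y, ((fun b => π (blk ((splitEquiv b0).symm (y, z)) b)) = k) ↔ π y = k b0 := by
      intro y
      constructor
      · intro h
        have := congrFun h b0
        rwa [blk_split] at this
      · intro h
        funext b
        by_cases hb : b = b0
        · subst hb; rwa [blk_split]
        · rw [blk_split_ne _ _ _ hb]; exact hz ⟨b, hb⟩
    have hs : ∀ y, ∑ b, s (blk ((splitEquiv b0).symm (y, z)) b)
        = s y + ∑ c : {c : Fin r // c ≠ b0}, s (z c) := by
      intro y
      rw [← add_sum_erase _ _ (mem_univ b0), blk_split]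
      congr 1
      rw [sum_subtype (univ.erase b0) (p := fun c => c ≠ b0) (by simp)]
      exact sum_congr rfl fun c _ => by rw [blk_split_ne _ _ _ c.2]
    have hchi : ∀ y, chi S ((splitEquiv b0).symm (y, z))
        = chi (slot S b0) y * ∏ c : {c : Fin r // c ≠ b0}, chi (slot S c.1) (z c) := by
      intro y
      rw [chi_slot, ← mul_prod_erase _ _ (mem_univ b0)]
      refine congrArg₂ (· * ·) ?_ ?_
      · exact congrArg (chi _) (blk_split b0 y z)
      rw [prod_subtype (univ.erase b0) (p := fun c => c ≠ b0) (by simp)]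
      exact prod_congr rfl fun c _ => congrArg (chi _) (blk_split_ne b0 y z c.2)
    simp only [hk, hs, hchi, ← eq_sub_iff_add_eq, ← ite_zero_mul, ← sum_mul, ← mul_assoc]
    congr 1
    have := hgood (k b0) (slot S b0) hb0 (a - ∑ c : {c : Fin r // c ≠ b0}, s (z c))
    simpa only [sum_filter] using this
  · push Not at hz
    obtain ⟨c, hc⟩ := hz
    have hk : ∀ y, ¬ (fun b => π (blk ((splitEquiv b0).symm (y, z)) b)) = k := by
      intro y h
      have := congrFun h c.1
      rw [blk_split_ne _ _ _ c.2] at this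
      exact hc this
    simp [hk]

/-- The rounding identity. -/
lemma round_eq {q d : ℕ} [NeZero q] {K : Type} [DecidableEq K] (π : (ι → Bool) → K)
    (s : (ι → Bool) → ZMod q) (hgood : ∀ k, Good d π s k) (c : K → ℕ) (hc : ∀ k, c k ≤ q)
    (φ : K → ℝ) {S : Finset ι} (hS : S = ∅ ∨ d < S.card) :
    ∑ x, sgn (decide ((s x).val < c (π x))) * φ (π x) * chi S x
      = ∑ x, (2 * (c (π x) : ℝ) / q - 1) * φ (π x) * chi S x := by
  rw [← sum_fiberwise_of_maps_to (t := univ.image π) (g := π) fun x hx => mem_image_of_mem π hx]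
  conv_rhs => rw [← sum_fiberwise_of_maps_to (t := univ.image π) (g := π)
    fun x hx => mem_image_of_mem π hx]
  refine sum_congr rfl fun k _ => ?_
  have h1 : ∀ x ∈ univ.filter (fun x => π x = k),
      sgn (decide ((s x).val < c (π x))) * φ (π x) * chi S x
        = φ k * (2 * (if (s x).val < c k then chi S x else 0) - chi S x) := by
    intro x hx
    rw [(mem_filter.mp hx).2]
    by_cases h : (s x).val < c k
    · simp only [h, decide_true, sgn, if_true]; ring
    · simp only [h, decide_false, sgn, if_false, Bool.false_eq_true]; ring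
  have h2 : ∀ x ∈ univ.filter (fun x => π x = k),
      (2 * (c (π x) : ℝ) / q - 1) * φ (π x) * chi S x = φ k * (2 * (c k : ℝ) / q - 1) * chi S x := by
    intro x hx
    rw [(mem_filter.mp hx).2]; ring
  rw [sum_congr rfl h1, sum_congr rfl h2, ← mul_sum, ← mul_sum, sum_sub_distrib, ← mul_sum,
    ← sum_filter, filter_filter]
  have h3 : (q:ℝ) * ∑ x ∈ univ.filter (fun x => π x = k ∧ (s x).val < c k), chi S x
      = c k * ∑ x ∈ univ.filter (fun x => π x = k), chi S x := by
    rw [← sum_fiberwise_of_maps_to (t := univ.filter fun a : ZMod q => a.val < c k) (g := s)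
      (fun x hx => by simp only [mem_filter, mem_univ, true_and] at hx ⊢; exact hx.2), mul_sum]
    rw [sum_congr rfl (fun a ha => ?_), sum_const, nsmul_eq_mul]
    rotate_left
    · exact ∑ x ∈ univ.filter (fun x => π x = k), chi S x
    · rw [← hgood k S hS a]
      congr 1
      refine sum_congr ?_ fun _ _ => rfl
      ext x
      simp only [mem_filter, mem_univ, true_and]
      exact ⟨fun h => ⟨h.1.1, h.2⟩, fun h => ⟨⟨h.1, h.2 ▸ (mem_filter.mp ha).2⟩, h.2⟩⟩
    congr 2
    conv_rhs => rw [← card_range (c k)]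
    refine card_nbij' (fun a => a.val) (fun i => (i : ZMod q)) ?_ ?_ ?_ ?_
    · intro a ha; simpa using ha
    · intro i hi
      simp only [coe_range, Set.mem_Iio] at hi
      simp [ZMod.val_natCast_of_lt (lt_of_lt_of_le hi (hc k)), hi]
    · intro a _; exact ZMod.natCast_zmod_val a
    · intro i hi
      simp only [coe_range, Set.mem_Iio] at hi
      exact ZMod.val_natCast_of_lt (lt_of_lt_of_le hi (hc k))
  have hq : (q:ℝ) ≠ 0 := Nat.cast_ne_zero.mpr (NeZero.ne q)
  field_simp
  linear_combination (2 * φ k) * h3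

lemma tot_neg (y : ι → Bool) : tot (fun i => !y i) = - tot y := by
  simp [tot, sgn_not]

lemma part_neg (J : Finset ι) (y : ι → Bool) : part J (fun i => !y i) = - part J y := by
  simp only [part, ← sum_neg_distrib]
  exact sum_congr rfl fun i _ => by cases y i <;> rfl

/-- Exact mean absolute value of the sum of `2 k` signs. -/
lemma abs_tot (k : ℕ) (hι : Fintype.card ι = 2 * k) :
    ∑ x : ι → Bool, |tot x| = 2 * (k:ℝ) * (2 * k).choose k := by
  let e : Finset ι ≃ (ι → Bool) :=
    { toFun := fun A i => decide (i ∈ A)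
      invFun := fun x => univ.filter fun i => x i = true
      left_inv := fun A => by ext; simp
      right_inv := fun x => by funext i; simp }
  have h1 : ∀ A : Finset ι, tot (e A) = 2 * (A.card:ℝ) - (2 * k : ℕ) := by
    intro A
    have : ∀ i, sgn (e A i) = 2 * (if i ∈ A then (1:ℝ) else 0) - 1 := fun i => by
      by_cases h : i ∈ A <;> simp [e, h, sgn] <;> norm_num
    simp only [tot, this, sum_sub_distrib, ← mul_sum, sum_boole, filter_mem_eq_inter, univ_inter,
      sum_const, card_univ, hι, nsmul_eq_mul, mul_one]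
  rw [← e.sum_comp]
  simp only [h1]
  rw [← powerset_univ, sum_powerset_apply_card (fun j => |2 * (j:ℝ) - (2 * k : ℕ)|), card_univ, hι]
  simp only [nsmul_eq_mul]
  set G : ℕ → ℝ := fun j => (j:ℝ) * (2 * k).choose j with hG
  have hstep : ∀ j ≤ 2 * k, ((2 * k).choose j : ℝ) * ((2 * k : ℕ) - 2 * (j:ℝ)) = G (j + 1) - G j := by
    intro j hj
    have h := Nat.choose_succ_right_eq (2 * k) j
    have h' : ((2 * k).choose (j + 1) : ℝ) * (j + 1) = (2 * k).choose j * ((2 * k : ℕ) - (j:ℝ)) := by
      rw [← Nat.cast_sub hj]; exact_mod_cast h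
    simp only [hG]; push_cast at h' ⊢; linarith
  have habs : ∀ j : ℕ, |2 * (j:ℝ) - (2 * k : ℕ)|
      = 2 * (if j < k then ((2 * k : ℕ):ℝ) - 2 * j else 0) - (((2 * k : ℕ):ℝ) - 2 * j) := by
    intro j
    split_ifs with h
    · have : (j:ℝ) ≤ k := by exact_mod_cast h.le
      rw [abs_of_nonpos (by push_cast; linarith)]; ring
    · have : (k:ℝ) ≤ j := by exact_mod_cast not_lt.mp h
      rw [abs_of_nonneg (by push_cast; linarith)]; ring
  have hs : ∀ n ≤ 2 * k + 1, ∑ j ∈ range n,
      ((2 * k).choose j : ℝ) * (((2 * k : ℕ):ℝ) - 2 * j) = G n - G 0 := fun n hn => by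
    rw [← sum_range_sub]
    exact sum_congr rfl fun j hj => hstep j (by have := mem_range.mp hj; omega)
  have hterm : ∀ j : ℕ, ((2 * k).choose j : ℝ) * |2 * (j:ℝ) - (2 * k : ℕ)|
      = 2 * (if j < k then ((2 * k).choose j : ℝ) * (((2 * k : ℕ):ℝ) - 2 * j) else 0)
        - ((2 * k).choose j : ℝ) * (((2 * k : ℕ):ℝ) - 2 * j) := fun j => by
    rw [habs]; split_ifs <;> ring
  rw [sum_congr rfl fun j _ => hterm j, sum_sub_distrib, ← mul_sum, ← sum_filter,
    show (range (2 * k + 1)).filter (· < k) = range k by ext; simp; omega,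
    hs k (by omega), hs (2 * k + 1) le_rfl]
  simp only [hG, Nat.choose_eq_zero_of_lt (Nat.lt_succ_self (2 * k))]
  push_cast
  ring

lemma central_lower {k : ℕ} (hk : 20 ≤ k) :
    (0.314:ℝ) * 16 ^ k ≤ k * ((2 * k).choose k : ℝ) ^ 2 := by
  induction k, hk using Nat.le_induction with
  | base =>
    have : (2 * 20).choose 20 = 137846528820 := by decide +kernel
    rw [this]; norm_num
  | succ k hk ih =>
    have h : ((k:ℝ) + 1) * (2 * (k + 1)).choose (k + 1) = 2 * (2 * k + 1) * (2 * k).choose k := by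
      exact_mod_cast Nat.succ_mul_centralBinom_succ k
    have hkpos : (1:ℝ) ≤ k := by exact_mod_cast (by omega : 1 ≤ k)
    refine le_of_mul_le_mul_left ?_ (by positivity : (0:ℝ) < ((k:ℝ) + 1) * k)
    calc ((k:ℝ) + 1) * k * (0.314 * 16 ^ (k + 1))
        = 16 * ((k:ℝ) + 1) * k * (0.314 * 16 ^ k) := by ring
      _ ≤ 16 * ((k:ℝ) + 1) * k * (k * ((2 * k).choose k : ℝ) ^ 2) :=
          mul_le_mul_of_nonneg_left ih (by positivity)
      _ ≤ (2 * (2 * (k:ℝ) + 1)) ^ 2 * k * ((2 * k).choose k : ℝ) ^ 2 := by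
          nlinarith [mul_nonneg (by linarith : (0:ℝ) ≤ k) (sq_nonneg ((2 * k).choose k : ℝ))]
      _ = k * (((k:ℝ) + 1) * (2 * (k + 1)).choose (k + 1)) ^ 2 := by rw [h]; ring
      _ = _ := by push_cast; ring

end Vale.Agent.P047
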