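import Mathlib
import Vale.Agent.P064.Spread

namespace Vale.Agent.P047

open Finset Vale.Agent.P064

lemma pow_le_choose_mul : ∀ a N : ℕ, a ≤ N → N ^ a ≤ N.choose a * a ^ a := by
  intro a
  induction a with
  | zero => simp
  | succ a ih =>
    intro N hN
    obtain ⟨M, rfl⟩ : ∃ M, N = M + 1 := ⟨N - 1, by omega⟩
    have h1 := ih M (by omega)
    have h2 : (M + 1) * a ≤ M * (a + 1) := by nlinarith
    have h3 : ((M + 1) * a) ^ a ≤ M.choose a * a ^ a * (a + 1) ^ a := by
      calc ((M + 1) * a) ^ a ≤ (M * (a + 1)) ^ a := Nat.pow_le_pow_left h2 a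
        _ = M ^ a * (a + 1) ^ a := mul_pow _ _ _
        _ ≤ _ := Nat.mul_le_mul_right _ h1
    have h4 : (M + 1) ^ a ≤ M.choose a * (a + 1) ^ a := by
      rcases Nat.eq_zero_or_pos a with rfl | ha
      · simp
      refine Nat.le_of_mul_le_mul_right ?_ (pow_pos ha a)
      rw [← mul_pow]
      exact h3.trans_eq (by ring)
    calc (M + 1) ^ (a + 1) = (M + 1) * (M + 1) ^ a := by ring
      _ ≤ (M + 1) * (M.choose a * (a + 1) ^ a) := Nat.mul_le_mul_left _ h4
      _ = ((M + 1) * M.choose a) * (a + 1) ^ a := by ring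
      _ = _ := by rw [Nat.add_one_mul_choose_eq]; ring

variable {X : Type} [Fintype X] [DecidableEq X]

/-- Random colouring: if each colour class is good with probability at least `3/4`, some
colouring with `2 q` colours has `q` good classes. -/
lemma colours {E : Finset X} {mu : Finset X → ℝ} {q : ℕ} (hq : 1 ≤ q)
    (h : 3 / 4 ≤ hitProb E mu (1 / (2 * q : ℕ))) :
    ∃ S : Fin q → Finset X, (∀ i, S i ∈ supp E mu) ∧ ∀ i j, i ≠ j → Disjoint (S i) (S j) := by
  classical
  set Q := 2 * q with hQ
  have hQpos : (0:ℝ) < (Q:ℝ) := by exact_mod_cast (show 0 < Q by omega)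
  set good : (E → Fin Q) → Finset (Fin Q) := fun c => univ.filter fun j =>
    Hit E mu ((univ.filter fun x : E => c x = j).map ⟨Subtype.val, Subtype.val_injective⟩)
  have hsum : ∀ j : Fin Q, (((univ : Finset (E → Fin Q)).filter fun c => j ∈ good c).card : ℝ)
      = (Q:ℝ) ^ E.card * hitProb E mu (1 / (Q:ℝ)) := by
    intro j
    have hcls : ∀ c : E → Fin Q, (univ.filter fun x : E => c x = j).map
        ⟨Subtype.val, Subtype.val_injective⟩ ∈ E.powerset := fun c => mem_powerset.mpr fun x hx => by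
      simp only [mem_map, Function.Embedding.coeFn_mk] at hx
      obtain ⟨y, -, rfl⟩ := hx; exact y.2
    rw [card_eq_sum_card_fiberwise (f := fun c : E → Fin Q => (univ.filter fun x : E => c x = j).map
        ⟨Subtype.val, Subtype.val_injective⟩) (t := E.powerset) (fun c _ => hcls c), hitProb,
      mul_sum, Nat.cast_sum]
    refine sum_congr rfl fun W hW => ?_
    rw [mem_powerset] at hW
    rw [filter_filter]
    by_cases hH : Hit E mu W
    · rw [if_pos hH, mul_one]
      have he : ((univ : Finset (E → Fin Q)).filter fun c => (j ∈ good c) ∧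
          (univ.filter fun x : E => c x = j).map ⟨Subtype.val, Subtype.val_injective⟩ = W)
          = Fintype.piFinset fun x : E => if (x:X) ∈ W then {j} else univ.erase j := by
        ext c
        simp only [mem_filter, mem_univ, true_and, Fintype.mem_piFinset]
        constructor
        · rintro ⟨-, hc⟩ x
          subst hc
          by_cases hx : c x = j
          · simp [hx]
          · simp [hx]
        · intro hc
          have : (univ.filter fun x : E => c x = j).map ⟨Subtype.val, Subtype.val_injective⟩ = W := by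
            ext y
            simp only [mem_map, mem_filter, mem_univ, true_and, Function.Embedding.coeFn_mk]
            constructor
            · rintro ⟨x, hx, rfl⟩
              by_contra hn
              have := hc x
              simp [hn, hx] at this
            · intro hy
              refine ⟨⟨y, hW hy⟩, ?_, rfl⟩
              simpa [hy] using hc ⟨y, hW hy⟩
          exact ⟨by simp only [good, mem_filter, mem_univ, true_and, this]; exact hH, this⟩
      rw [he, Fintype.card_piFinset]
      push_cast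
      have hv : ∀ x : E, ((if (x:X) ∈ W then ({j} : Finset (Fin Q)) else univ.erase j).card : ℝ)
          = if (x:X) ∈ W then 1 else (Q:ℝ) - 1 := by
        intro x; split_ifs
        · simp
        · rw [card_erase_of_mem (mem_univ j), card_univ, Fintype.card_fin,
            Nat.cast_sub (by omega : 1 ≤ Q)]
          simp
      simp only [hv]
      rw [prod_coe_sort E (fun x : X => if x ∈ W then (1:ℝ) else (Q:ℝ) - 1), prod_ite, prod_const_one,
        one_mul, prod_const, ← sdiff_eq_filter, bw]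
      have hc : E.card = W.card + (E \ W).card := by
        rw [card_sdiff_of_subset hW]; have := card_le_card hW; omega
      rw [hc, pow_add, one_sub_div hQpos.ne', one_div, inv_pow, div_pow]
      field_simp
    · rw [if_neg hH, mul_zero, mul_zero, Nat.cast_eq_zero, card_eq_zero, filter_eq_empty_iff]
      rintro c - ⟨hc, he⟩
      simp only [good, mem_filter, mem_univ, true_and, he] at hc
      exact hH hc
  obtain ⟨c, hc⟩ : ∃ c, q ≤ (good c).card := by
    by_contra hcon
    push Not at hcon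
    have h1 : (∑ c : E → Fin Q, ((good c).card : ℝ)) ≤ ∑ _c : E → Fin Q, ((q:ℝ) - 1) :=
      sum_le_sum fun c _ => by
        have := hcon c
        have : ((good c).card : ℝ) + 1 ≤ q := by exact_mod_cast this
        linarith
    have h2 : (∑ c : E → Fin Q, ((good c).card : ℝ))
        = (Q:ℝ) * ((Q:ℝ) ^ E.card * hitProb E mu (1 / (Q:ℝ))) := by
      have : ∀ c, ((good c).card : ℝ) = ∑ j : Fin Q, if j ∈ good c then (1:ℝ) else 0 := fun c => by
        rw [sum_boole, filter_mem_eq_inter, univ_inter]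
      simp only [this]
      rw [sum_comm]
      simp only [sum_boole, hsum, sum_const, card_univ, Fintype.card_fin, nsmul_eq_mul]
    rw [h2, sum_const, card_univ, Fintype.card_fun, Fintype.card_coe, Fintype.card_fin,
      nsmul_eq_mul] at h1
    push_cast at h1
    have hq' : (Q:ℝ) = 2 * q := by rw [hQ]; push_cast; ring
    have hp : (0:ℝ) < (Q:ℝ) ^ E.card := by positivity
    have hq1 : (1:ℝ) ≤ q := by exact_mod_cast hq
    have hH : 3 / 4 ≤ hitProb E mu (1 / (Q:ℝ)) := h
    have h3 : (Q:ℝ) * hitProb E mu (1 / (Q:ℝ)) ≤ q - 1 :=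
      le_of_mul_le_mul_left (by linarith) hp
    nlinarith
  obtain ⟨J, hJ, hJc⟩ := exists_subset_card_eq hc
  let e : Fin q ≃ J := (J.equivFinOfCardEq hJc).symm
  have hgood : ∀ i : Fin q, Hit E mu ((univ.filter fun x : E => c x = (e i : Fin Q)).map
      ⟨Subtype.val, Subtype.val_injective⟩) := fun i => (mem_filter.mp (hJ (e i).2)).2
  choose S hS hSsub using hgood
  refine ⟨S, hS, fun i k hik => disjoint_left.mpr fun x hx hx' => hik (e.injective ?_)⟩
  have h1 := hSsub i hx
  have h2 := hSsub k hx'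
  simp only [mem_map, mem_filter, mem_univ, true_and, Function.Embedding.coeFn_mk] at h1 h2
  obtain ⟨y, hy, rfl⟩ := h1
  obtain ⟨z, hz, hzy⟩ := h2
  obtain rfl := Subtype.ext hzy
  exact Subtype.ext (hy.symm.trans hz)

/-- In a large set there are `q` disjoint nonempty subsets of equal size with equal sums of
every function of a small bounded family. -/
theorem trade {I : Type} [Fintype I] [DecidableEq I] (φ : I → X → ℤ) (hφ : ∀ i x, |φ i x| ≤ 1)
    (A : Finset X) {q a k : ℕ} (hq : 1 ≤ q) (hk : 1 ≤ k) (hak : a < 2 ^ k)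
    (hsize : 2 * (128 * q * k) * a ≤ A.card) (hI : (2 * a + 1) ^ Fintype.card I < 2 ^ a) :
    ∃ G : Fin q → Finset X, (∀ j, G j ⊆ A) ∧ (∀ j, (G j).Nonempty) ∧
      (∀ j j', j ≠ j' → Disjoint (G j) (G j')) ∧ (∀ j j', (G j).card = (G j').card) ∧
      ∀ i j j', ∑ x ∈ G j, φ i x = ∑ x ∈ G j', φ i x := by
  classical
  set K := 128 * q * k with hK
  have hK1 : 1 ≤ K := by
    have : 0 < K := by positivity
    omega
  have haN : a ≤ A.card := le_trans (Nat.le_mul_of_pos_left a (by positivity)) hsize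
  have hchoose : 2 ^ a * K ^ a ≤ A.card.choose a := by
    rcases Nat.eq_zero_or_pos a with rfl | ha
    · simp
    refine Nat.le_of_mul_le_mul_right ?_ (pow_pos ha a)
    rw [← mul_pow, ← mul_pow]
    exact (Nat.pow_le_pow_left hsize a).trans (pow_le_choose_mul a _ haN)
  set vec : Finset X → (I → ℤ) := fun T i => ∑ x ∈ T, φ i x
  set box := Fintype.piFinset fun _ : I => Finset.Icc (-(a:ℤ)) a
  have hbox : ∀ T ∈ A.powersetCard a, vec T ∈ box := by
    intro T hT
    refine Fintype.mem_piFinset.mpr fun i => mem_Icc.mpr (abs_le.mp ?_)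
    calc |vec T i| ≤ ∑ x ∈ T, |φ i x| := abs_sum_le_sum_abs _ _
      _ ≤ ∑ _x ∈ T, (1:ℤ) := sum_le_sum fun x _ => hφ i x
      _ = a := by simp [(mem_powersetCard.mp hT).2]
  obtain ⟨v, -, hv⟩ := exists_le_card_fiber_of_mul_le_card_of_maps_to (s := A.powersetCard a)
    (t := box) (n := K ^ a + 1) hbox
    ⟨fun _ => 0, Fintype.mem_piFinset.mpr fun _ => by simp⟩ (by
      rw [card_powersetCard, Fintype.card_piFinset]
      simp only [Int.card_Icc, prod_const, card_univ]
      rw [show ((a:ℤ) + 1 - -(a:ℤ)).toNat = 2 * a + 1 by omega]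
      refine le_trans ?_ hchoose
      have h1 : (2 * a + 1) ^ Fintype.card I + 1 ≤ 2 ^ a := hI
      have h2 : (2 * a + 1) ^ Fintype.card I * (K ^ a + 1)
          ≤ ((2 * a + 1) ^ Fintype.card I + 1) * K ^ a := by
        have : (2 * a + 1) ^ Fintype.card I ≤ K ^ a := by
          rcases Nat.eq_zero_or_pos a with rfl | ha
          · simp
          refine (Nat.le_of_lt hI).trans (Nat.pow_le_pow_left ?_ a)
          have : 128 ≤ K := by
            have := Nat.mul_le_mul (Nat.mul_le_mul (le_refl 128) hq) hk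
            omega
          omega
        nlinarith
      exact h2.trans (Nat.mul_le_mul_right _ h1))
  set F0 := (A.powersetCard a).filter fun T => vec T = v
  have hF0 : K ^ a + 1 ≤ F0.card := hv
  set cnt : Finset X → ℕ := fun Y => (F0.filter (Y ⊆ ·)).card
  obtain ⟨Y, -, hYmax⟩ := exists_max_image (univ : Finset (Finset X))
    (fun Y => (cnt Y : ℝ) * (K:ℝ) ^ Y.card) univ_nonempty
  have hKr : (1:ℝ) ≤ (K:ℝ) := by exact_mod_cast hK1
  have hY0 : (cnt ∅ : ℝ) ≤ cnt Y * (K:ℝ) ^ Y.card := by simpa using hYmax ∅ (mem_univ _)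
  have hcnt0 : cnt ∅ = F0.card := by simp [cnt]
  have hYpos : 0 < cnt Y := by
    by_contra h0
    rw [Nat.eq_zero_of_not_pos h0, hcnt0, Nat.cast_zero, zero_mul] at hY0
    have : F0.card = 0 := by exact_mod_cast le_antisymm hY0 (Nat.cast_nonneg _)
    omega
  have hmemF : ∀ T ∈ F0, T ⊆ A ∧ T.card = a ∧ vec T = v := fun T hT => by
    obtain ⟨h1, h2⟩ := mem_filter.mp hT
    exact ⟨(mem_powersetCard.mp h1).1, (mem_powersetCard.mp h1).2, h2⟩
  have hYlt : Y.card < a := by
    obtain ⟨T, hT⟩ := card_pos.mp hYpos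
    obtain ⟨hTF, hYT⟩ := mem_filter.mp hT
    have hle := card_le_card hYT
    rw [(hmemF T hTF).2.1] at hle
    refine lt_of_le_of_ne hle fun he => ?_
    have h1 : cnt Y ≤ 1 := card_le_one.mpr fun T1 h1 T2 h2 => by
      obtain ⟨f1, g1⟩ := mem_filter.mp h1
      obtain ⟨f2, g2⟩ := mem_filter.mp h2
      rw [← eq_of_subset_of_card_le g1 (by rw [(hmemF T1 f1).2.1, he]),
        eq_of_subset_of_card_le g2 (by rw [(hmemF T2 f2).2.1, he])]
    have h2 : (cnt Y : ℝ) * (K:ℝ) ^ Y.card ≤ ((K ^ a : ℕ) : ℝ) := by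
      rw [he]; push_cast
      exact mul_le_of_le_one_left (by positivity) (by exact_mod_cast h1)
    rw [hcnt0] at hY0
    have : F0.card ≤ K ^ a := by exact_mod_cast hY0.trans h2
    omega
  set L := (F0.filter (Y ⊆ ·)).image (· \ Y)
  have hinj : Set.InjOn (· \ Y) (F0.filter (Y ⊆ ·) : Set (Finset X)) := by
    intro T1 h1 T2 h2 he
    simp only [coe_filter, Set.mem_setOf_eq] at h1 h2
    calc T1 = (T1 \ Y) ∪ Y := (sdiff_union_of_subset h1.2).symm
      _ = (T2 \ Y) ∪ Y := by rw [show T1 \ Y = T2 \ Y from he]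
      _ = T2 := sdiff_union_of_subset h2.2
  have hLc : L.card = cnt Y := card_image_of_injOn hinj
  set mu : Finset X → ℝ := fun S => if S ∈ L then (cnt Y : ℝ)⁻¹ else 0
  have hLsub : ∀ S ∈ L, S ⊆ A ∧ S.card = a - Y.card ∧ Disjoint S Y ∧ S ∪ Y ∈ F0 := by
    intro S hS
    obtain ⟨T, hT, rfl⟩ := mem_image.mp hS
    obtain ⟨hTF, hYT⟩ := mem_filter.mp hT
    refine ⟨sdiff_subset.trans (hmemF T hTF).1, ?_, sdiff_disjoint, by
      rw [sdiff_union_of_subset hYT]; exact hTF⟩
    rw [card_sdiff_of_subset hYT, (hmemF T hTF).2.1]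
  have hcpos : (0:ℝ) < cnt Y := by exact_mod_cast hYpos
  have hsupp : supp A mu = L := by
    ext S
    simp only [supp, mem_filter, mem_powerset, mu]
    exact ⟨fun h => by by_contra hn; exact h.2 (if_neg hn),
      fun h => ⟨(hLsub S h).1, by simp [h, hYpos.ne']⟩⟩
  have hspread : Spread A mu ((K:ℝ)⁻¹) a := by
    refine ⟨fun S => by simp only [mu]; split_ifs <;> positivity, fun S hS => ?_, fun V => ?_⟩
    · rw [hsupp] at hS; rw [(hLsub S hS).2.1]; omega
    rw [hsupp, sum_congr rfl (fun S hS => if_pos (mem_filter.mp hS).1), sum_const, nsmul_eq_mul,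
      mul_inv_le_iff₀ hcpos]
    by_cases hd : Disjoint V Y
    · have h1 : (L.filter (V ⊆ ·)).card ≤ cnt (V ∪ Y) := by
        refine card_le_card_of_injOn (· ∪ Y) (fun S hS => ?_) ?_
        · simp only [coe_filter, Set.mem_setOf_eq] at hS
          exact mem_filter.mpr ⟨(hLsub S hS.1).2.2.2, union_subset_union hS.2 subset_rfl⟩
        · intro S1 h1 S2 h2 he
          simp only [coe_filter, Set.mem_setOf_eq] at h1 h2
          calc S1 = (S1 ∪ Y) \ Y := (union_sdiff_cancel_right (hLsub S1 h1.1).2.2.1).symm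
            _ = (S2 ∪ Y) \ Y := by rw [show S1 ∪ Y = S2 ∪ Y from he]
            _ = S2 := union_sdiff_cancel_right (hLsub S2 h2.1).2.2.1
      have h2 := hYmax (V ∪ Y) (mem_univ _)
      simp only [card_union_of_disjoint hd, pow_add] at h2
      have h3 : (cnt (V ∪ Y) : ℝ) * (K:ℝ) ^ V.card ≤ cnt Y :=
        le_of_mul_le_mul_right (by linarith) (pow_pos (by linarith : (0:ℝ) < K) Y.card)
      rw [inv_pow, inv_mul_eq_div, le_div_iff₀ (by positivity)]
      exact le_trans (mul_le_mul_of_nonneg_right (by exact_mod_cast h1) (by positivity)) h3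
    · rw [filter_eq_empty_iff.mpr fun S hS hVS => hd
        (disjoint_of_subset_left hVS (hLsub S hS).2.2.1)]
      simp only [card_empty, Nat.cast_zero]; positivity
  have hmain := spread_hit (by positivity : (0:ℝ) < (K:ℝ)⁻¹) k A mu a hak hspread
  have htot : ∑ S ∈ supp A mu, mu S = 1 := by
    rw [hsupp, sum_congr rfl (fun S hS => if_pos hS), sum_const, nsmul_eq_mul, hLc,
      mul_inv_cancel₀ hcpos.ne']
  have hrate : min 1 (64 * (K:ℝ)⁻¹ * k) = 1 / ((2 * q : ℕ) : ℝ) := by
    have hq0 : (1:ℝ) ≤ q := by exact_mod_cast hq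
    have hk0 : (0:ℝ) < k := by exact_mod_cast hk
    have e : 64 * (K:ℝ)⁻¹ * k = 1 / ((2 * q : ℕ) : ℝ) := by
      rw [hK]; push_cast; field_simp; ring
    rw [e, min_eq_right]
    rw [div_le_one (by positivity)]; push_cast; linarith
  rw [htot, hrate] at hmain
  have h34 : 3 / 4 ≤ hitProb A mu (1 / ((2 * q : ℕ) : ℝ)) := by
    have : (0:ℝ) ≤ (1/4) ^ a := by positivity
    linarith
  obtain ⟨G, hG, hdisj⟩ := colours hq h34
  simp only [hsupp] at hG
  refine ⟨G, fun j => (hLsub _ (hG j)).1, fun j => card_pos.mp (by rw [(hLsub _ (hG j)).2.1]; omega),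
    hdisj, fun j j' => by rw [(hLsub _ (hG j)).2.1, (hLsub _ (hG j')).2.1], fun i j j' => ?_⟩
  have hval : ∀ j, ∑ x ∈ G j, φ i x = v i - ∑ x ∈ Y, φ i x := fun j => by
    obtain ⟨-, -, hd, hF⟩ := hLsub _ (hG j)
    have := congrFun (hmemF _ hF).2.2 i
    simp only [vec, sum_union hd] at this
    linarith
  rw [hval, hval]

end Vale.Agent.P047
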