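import Vale.Agent.P047.Cube
import Vale.Agent.P047.Trade

set_option linter.unusedSectionVars false

namespace Vale.Agent.P047

open Finset

variable {ι : Type} [Fintype ι] [DecidableEq ι] {K : Type} [DecidableEq K]

/-- The integer sign of a bit. -/
def zs (b : Bool) : ℤ := if b then 1 else -1

lemma zs_cast (b : Bool) : ((zs b : ℤ) : ℝ) = sgn b := by cases b <;> norm_num [zs, sgn]

/-- The integer sum of the signs in `J`. -/
def part (J : Finset ι) (x : ι → Bool) : ℤ := ∑ i ∈ J, zs (x i)

lemma part_cast (J : Finset ι) (x : ι → Bool) : ((part J x : ℤ) : ℝ) = ∑ i ∈ J, sgn (x i) := by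
  simp [part, zs_cast]

/-- The cell `k` is equitably labelled at every frequency in the relevant range. -/
def Good {q : ℕ} (d : ℕ) (π : (ι → Bool) → K) (s : (ι → Bool) → ZMod q) (k : K) : Prop :=
  ∀ S : Finset ι, S = ∅ ∨ d < S.card → ∀ a : ZMod q,
    (q:ℝ) * ∑ x ∈ univ.filter (fun x => π x = k ∧ s x = a), chi S x
      = ∑ x ∈ univ.filter (fun x => π x = k), chi S x

section Sums

lemma sum_sgn_mul (i : ι) (g : (ι → Bool) → ℝ)
    (hg : ∀ x, g (Function.update x i (!x i)) = g x) : ∑ x, sgn (x i) * g x = 0 := by
  let e : (ι → Bool) ≃ (ι → Bool) := Function.Involutive.toPerm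
    (fun x => Function.update x i (!x i)) (fun x => by
      funext j
      by_cases hj : j = i
      · subst hj; simp
      · simp [Function.update_of_ne hj])
  have h : ∑ x, sgn (x i) * g x = - ∑ x, sgn (x i) * g x := by
    conv_lhs => rw [← e.sum_comp]
    rw [← sum_neg_distrib]
    refine sum_congr rfl fun x _ => ?_
    show sgn (Function.update x i (!x i) i) * g (Function.update x i (!x i)) = _
    rw [hg, Function.update_self, sgn_not]; ring
  linarith

lemma part_moments (J : Finset ι) :
    (∑ x : ι → Bool, (∑ i ∈ J, sgn (x i)) ^ 2 = J.card * (2:ℝ) ^ Fintype.card ι) ∧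
      ∑ x : ι → Bool, (∑ i ∈ J, sgn (x i)) ^ 4 ≤ 3 * (J.card:ℝ) ^ 2 * 2 ^ Fintype.card ι := by
  induction J using Finset.induction_on with
  | empty => simp
  | @insert i J hi ih =>
    set w : (ι → Bool) → ℝ := fun x => ∑ j ∈ J, sgn (x j)
    have hw : ∀ x, w (Function.update x i (!x i)) = w x := fun x =>
      sum_congr rfl fun j hj => by rw [Function.update_of_ne (fun h : j = i => hi (h ▸ hj))]
    have h1 := sum_sgn_mul i w hw
    have h3 := sum_sgn_mul i (fun x => w x ^ 3) fun x => by simp only [hw]
    simp only [sum_insert hi, card_insert_of_notMem hi]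
    have e2 : ∀ x : ι → Bool, (sgn (x i) + w x) ^ 2 = 1 + w x ^ 2 + 2 * (sgn (x i) * w x) := by
      intro x; linear_combination sgn_sq (x i)
    have e4 : ∀ x : ι → Bool, (sgn (x i) + w x) ^ 4
        = 1 + 6 * w x ^ 2 + w x ^ 4 + 4 * (sgn (x i) * w x) + 4 * (sgn (x i) * w x ^ 3) := by
      intro x
      linear_combination (sgn (x i) * sgn (x i) + 1 + 6 * w x ^ 2 + 4 * sgn (x i) * w x) * sgn_sq (x i)
    have hN : ∑ _x : ι → Bool, (1:ℝ) = 2 ^ Fintype.card ι := by simp
    constructor
    · rw [sum_congr rfl fun x _ => e2 x]
      simp only [sum_add_distrib, ← mul_sum, h1, ih.1, hN, w]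
      push_cast; ring
    · rw [sum_congr rfl fun x _ => e4 x]
      simp only [sum_add_distrib, ← mul_sum, h1, h3, hN]
      simp only [w, ih.1]
      have := ih.2
      push_cast
      nlinarith [pow_pos (two_pos (α := ℝ)) (Fintype.card ι)]

end Sums

/-- Greedy partition of a subset of a cube into labelled cells of constant weight. -/
lemma greedy (m d q a k T : ℕ) [NeZero q] (hk : 1 ≤ k) (hak : a < 2 ^ k)
    (hsize : 2 * (128 * q * k) * a ≤ T)
    (hI : (2 * a + 1) ^ (Fintype.card {S : Finset (Fin m) // d < S.card}) < 2 ^ a) :
    ∀ A : Finset (Fin m → Bool), ∃ (π : (Fin m → Bool) → Option (Fin m → Bool))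
      (s : (Fin m → Bool) → ZMod q),
      (∀ x, x ∉ A → π x = none) ∧
      (∀ x g, π x = some g → g ∈ A ∧ part univ x = part univ g) ∧
      (∀ g, Good d π s (some g)) ∧
      (A.filter fun x => π x = none).card ≤ (m + 1) * T := by
  intro A
  induction A using Finset.strongInduction with
  | H A ih =>
    by_cases hbig : ∃ w, T ≤ (A.filter fun x => (univ.filter fun i => x i = true).card = w).card
    swap
    · push Not at hbig
      refine ⟨fun _ => none, fun _ => 0, fun _ _ => rfl, fun _ _ h => by simp at h,
        fun g S _ a => by simp, ?_⟩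
      refine (card_filter_le _ _).trans ?_
      rw [card_eq_sum_card_fiberwise (f := fun x : Fin m → Bool => (univ.filter fun i => x i = true).card)
        (t := range (m + 1)) (fun x _ => by
          have := card_filter_le (univ : Finset (Fin m)) (fun i => x i = true)
          simp only [card_univ, Fintype.card_fin] at this
          simp; omega)]
      refine (sum_le_sum fun w _ => (hbig w).le).trans ?_
      simp
    obtain ⟨w, hw⟩ := hbig
    set Aw := A.filter fun x => (univ.filter fun i => x i = true).card = w
    have hq : 1 ≤ q := NeZero.one_le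
    obtain ⟨G, hGA, hGne, hGd, hGc, hGs⟩ := trade
      (fun (S : {S : Finset (Fin m) // d < S.card}) (x : Fin m → Bool) => ∏ i ∈ S.1, zs (x i))
      (fun S x => by
        rw [Finset.abs_prod]
        exact le_of_eq (prod_eq_one fun i _ => by cases x i <;> norm_num [zs]))
      Aw hq hk hak (hsize.trans hw) hI
    set U := univ.biUnion G
    have hUA : U ⊆ A := biUnion_subset.mpr fun j _ => (hGA j).trans (filter_subset _ _)
    obtain ⟨g0, hg0⟩ := hGne ⟨0, hq⟩
    have hg0U : g0 ∈ U := mem_biUnion.mpr ⟨_, mem_univ _, hg0⟩
    obtain ⟨π0, s0, h0out, h0tot, h0good, h0cnt⟩ := ih (A \ U)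
      (sdiff_ssubset hUA ⟨g0, hg0U⟩)
    set lab : (Fin m → Bool) → ZMod q := fun x => ∑ j, if x ∈ G j then ((j.1 : ℕ) : ZMod q) else 0
    have hlab : ∀ j, ∀ x ∈ G j, lab x = ((j.1 : ℕ) : ZMod q) := by
      intro j x hx
      simp only [lab]
      rw [sum_eq_single j, if_pos hx]
      · intro j' _ hne; exact if_neg fun h => disjoint_left.mp (hGd j' j hne) h hx
      · simp
    refine ⟨fun x => if x ∈ U then some g0 else π0 x, fun x => if x ∈ U then lab x else s0 x,
      fun x hx => ?_, fun x g h => ?_, fun g => ?_, ?_⟩
    · have : x ∉ U := fun h => hx (hUA h)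
      simp [this, h0out x (fun h => hx (mem_sdiff.mp h).1)]
    · by_cases hx : x ∈ U
      · simp only [hx, if_true, Option.some.injEq] at h
        subst h
        refine ⟨hUA hg0U, ?_⟩
        have hwt : ∀ y ∈ U, part univ y = 2 * (w:ℤ) - m := by
          intro y hy
          obtain ⟨j, -, hj⟩ := mem_biUnion.mp hy
          have hyw := (mem_filter.mp (hGA j hj)).2
          have : ∀ i, zs (y i) = 2 * (if y i = true then (1:ℤ) else 0) - 1 := fun i => by
            cases y i <;> norm_num [zs]
          simp only [part, this, sum_sub_distrib, ← mul_sum, sum_boole, hyw, sum_const, card_univ,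
            Fintype.card_fin, nsmul_eq_mul, mul_one]
        rw [hwt x hx, hwt g0 hg0U]
      · simp only [hx, if_false] at h
        exact ⟨(mem_sdiff.mp (h0tot x g h).1).1, (h0tot x g h).2⟩
    · by_cases hg : g = g0
      · subst hg
        intro S hS b
        have hcell : (univ.filter fun x => (if x ∈ U then some g else π0 x) = some g) = U := by
          ext x
          by_cases hx : x ∈ U
          · simp [hx]
          · simp only [mem_filter, mem_univ, true_and, hx, if_false, iff_false]
            exact fun h => (mem_sdiff.mp (h0tot x g h).1).2 hg0U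
        have hsub : (univ.filter fun x => (if x ∈ U then some g else π0 x) = some g ∧
            (if x ∈ U then lab x else s0 x) = b) = G ⟨b.val, ZMod.val_lt b⟩ := by
          ext x
          rw [mem_filter]
          constructor
          · rintro ⟨-, h1, h2⟩
            have hx : x ∈ U := hcell ▸ mem_filter.mpr ⟨mem_univ _, h1⟩
            obtain ⟨j, -, hj⟩ := mem_biUnion.mp hx
            rw [if_pos hx, hlab j x hj] at h2
            have : j.1 = b.val := by
              rw [← h2, ZMod.val_natCast_of_lt j.2]
            have : j = ⟨b.val, ZMod.val_lt b⟩ := Fin.ext this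
            rwa [← this]
          · intro hx
            have hxU : x ∈ U := mem_biUnion.mpr ⟨_, mem_univ _, hx⟩
            refine ⟨mem_univ _, by simp [hxU], ?_⟩
            rw [if_pos hxU, hlab _ x hx, ZMod.natCast_zmod_val]
        rw [hcell, hsub, sum_biUnion (fun i _ j _ hij => hGd i j hij)]
        have heq : ∀ j, ∑ x ∈ G j, chi S x = ∑ x ∈ G ⟨b.val, ZMod.val_lt b⟩, chi S x := by
          intro j
          rcases hS with rfl | hS
          · simp [chi, hGc j ⟨b.val, ZMod.val_lt b⟩]
          · have := hGs ⟨S, hS⟩ j ⟨b.val, ZMod.val_lt b⟩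
            have h := congrArg (fun z : ℤ => (z:ℝ)) this
            simpa [chi, zs_cast] using h
        rw [sum_congr rfl fun j _ => heq j, sum_const, card_univ, Fintype.card_fin, nsmul_eq_mul]
      · intro S hS b
        have h1 : ∀ x, ((if x ∈ U then some g0 else π0 x) = some g) ↔ π0 x = some g := by
          intro x
          by_cases hx : x ∈ U
          · simp only [hx, if_true, Option.some.injEq]
            constructor
            · intro h; exact absurd h.symm hg
            · intro h; rw [h0out x fun h' => (mem_sdiff.mp h').2 hx] at h; simp at h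
          · simp [hx]
        have h2 : ∀ x, ((if x ∈ U then some g0 else π0 x) = some g ∧
            (if x ∈ U then lab x else s0 x) = b) ↔ (π0 x = some g ∧ s0 x = b) := by
          intro x
          rw [h1 x]
          by_cases hx : x ∈ U
          · rw [h0out x fun h' => (mem_sdiff.mp h').2 hx]; simp
          · simp [hx]
        rw [filter_congr (fun x _ => h2 x), filter_congr (fun x _ => h1 x)]
        exact h0good g S hS b
    · refine le_trans (le_of_eq (congrArg card ?_)) h0cnt
      ext x
      by_cases hx : x ∈ U <;> simp [hx]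

/-! ### Free coordinates -/

/-- Labelling by `l` designated coordinates. -/
lemma free_good {l q : ℕ} [NeZero q] (hq : q = 2 ^ l) (e : Fin l ↪ ι) :
    ∃ s : (ι → Bool) → ZMod q, ∀ S : Finset ι, S = ∅ ∨ l < S.card → ∀ a : ZMod q,
      (q:ℝ) * ∑ x ∈ univ.filter (fun x => s x = a), chi S x = ∑ x, chi S x := by
  let E : (Fin l → Bool) ≃ ZMod q := Fintype.equivOfCardEq (by simp [ZMod.card, hq])
  refine ⟨fun x => E fun j => x (e j), fun S hS a => ?_⟩
  rcases hS with rfl | hS
  · simp only [chi, prod_empty, sum_const, nsmul_eq_mul, mul_one]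
    have hb : ∀ b : ZMod q, (univ.filter fun x : ι → Bool => E (fun j => x (e j)) = b).card
        = (univ.filter fun x : ι → Bool => E (fun j => x (e j)) = a).card := by
      intro b
      classical
      let δ : Fin l → Bool := fun j => xor (E.symm a j) (E.symm b j)
      let f : (ι → Bool) → (ι → Bool) := fun x i =>
        xor (x i) (if h : ∃ j, e j = i then δ h.choose else false)
      have hf : ∀ x j, f x (e j) = xor (x (e j)) (δ j) := by
        intro x j
        have h : ∃ j', e j' = e j := ⟨j, rfl⟩
        simp only [f, dif_pos h]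
        rw [e.injective h.choose_spec]
      have hinv : ∀ x, f (f x) = x := fun x => by funext i; simp [f]
      refine card_nbij' f f ?_ ?_ (fun x _ => hinv x) (fun x _ => hinv x)
      · intro x hx
        simp only [coe_filter, mem_univ, true_and, Set.mem_ofPred_eq, ← Equiv.eq_symm_apply] at hx ⊢
        funext j
        rw [hf, congrFun hx j]
        simp only [δ]
        cases E.symm a j <;> cases E.symm b j <;> rfl
      · intro x hx
        simp only [coe_filter, mem_univ, true_and, Set.mem_ofPred_eq, ← Equiv.eq_symm_apply] at hx ⊢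
        funext j
        rw [hf, congrFun hx j]
        simp only [δ]
        cases E.symm a j <;> cases E.symm b j <;> rfl
    have := card_eq_sum_card_fiberwise (f := fun x : ι → Bool => E (fun j => x (e j)))
      (s := univ) (t := univ) (fun x _ => mem_univ _)
    rw [sum_congr rfl fun b _ => hb b, sum_const, card_univ (α := ZMod q), ZMod.card, smul_eq_mul] at this
    exact_mod_cast this.symm
  · have hne : S ≠ ∅ := by rintro rfl; simp at hS
    rw [cf_empty_chi, if_neg hne]
    have hdep := degLE_dep (f := fun x : ι → Bool => if E (fun j => x (e j)) = a then (1:ℝ) else 0)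
      (T := univ.map e) (d := l) (by simp) (fun x y h => by
        have : (fun j => x (e j)) = fun j => y (e j) :=
          funext fun j => h _ (mem_map_of_mem _ (mem_univ j))
        simp [this]) S hS
    simp only [cf, ite_mul, one_mul, zero_mul, ← sum_filter] at hdep
    rw [hdep, mul_zero]

/-! ### Blocks -/

/-- A block: a cube with a labelled partition, an exact-sum coordinate set and cell values. -/
structure Block (q d c ε : ℕ) (size : ℕ) (main : ℕ) where
  ι : Type
  [fin : Fintype ι]
  [dec : DecidableEq ι]
  K : Type
  [decK : DecidableEq K]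
  J : Finset ι
  π : (ι → Bool) → K
  s : (ι → Bool) → ZMod q
  u : K → ℤ
  e : Fin c ↪ ι
  card_ι : Fintype.card ι = size
  card_J : J.card = main
  good : ∀ k, Good d π s k
  bad : (univ.filter fun x : ι → Bool => u (π x) ≠ part J x).card ≤ ε

attribute [instance] Block.fin Block.dec Block.decK

lemma chi_sum_type {α β : Type} [Fintype α] [DecidableEq α] [Fintype β] [DecidableEq β]
    (S : Finset (α ⊕ β)) (x : α ⊕ β → Bool) :
    chi S x = chi S.toLeft (x ∘ Sum.inl) * chi S.toRight (x ∘ Sum.inr) := by
  conv_lhs => rw [← toLeft_disjSum_toRight (u := S)]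
  rw [chi, prod_disjSum]
  rfl

/-- All blocks exist. -/
theorem exists_block (m d l q L : ℕ) [NeZero q] (hq : q = 2 ^ l)
    (π₀ : (Fin m → Bool) → Option (Fin m → Bool)) (s₀ : (Fin m → Bool) → ZMod q)
    (h0tot : ∀ x g, π₀ x = some g → part univ x = part univ g)
    (h0good : ∀ g, Good d π₀ s₀ (some g))
    (h0cnt : (univ.filter fun x => π₀ x = none).card ≤ L) :
    ∀ t, Nonempty (Block q (t * d + m + l) l (t * L * 2 ^ (t * m + l) / 2 ^ m)
      (t * m + l) (t * m)) := by
  intro t
  induction t with
  | zero =>
    obtain ⟨s, hs⟩ := free_good hq (Function.Embedding.refl (Fin l))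
    refine ⟨{ ι := Fin l, K := Unit, J := ∅, π := fun _ => (), s := s, u := fun _ => 0,
              e := Function.Embedding.refl _, card_ι := by simp, card_J := by simp,
              good := fun k S hS a => ?_, bad := ?_ }⟩
    · have hS' : S = ∅ ∨ l < S.card := hS.imp_right fun h => by omega
      simpa using hs S hS' a
    · simp [part]
  | succ t ih =>
    obtain ⟨B⟩ := ih
    obtain ⟨sf, hsf⟩ := free_good hq B.e
    let π : (Fin m ⊕ B.ι → Bool) → ((Fin m → Bool) × B.K) ⊕ (Fin m → Bool) := fun x =>
      match π₀ (x ∘ Sum.inl) with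
      | some g => Sum.inl (g, B.π (x ∘ Sum.inr))
      | none => Sum.inr (x ∘ Sum.inl)
    let s : (Fin m ⊕ B.ι → Bool) → ZMod q := fun x =>
      match π₀ (x ∘ Sum.inl) with
      | some _ => s₀ (x ∘ Sum.inl) + B.s (x ∘ Sum.inr)
      | none => sf (x ∘ Sum.inr)
    let u : ((Fin m → Bool) × B.K) ⊕ (Fin m → Bool) → ℤ :=
      Sum.elim (fun gk => part univ gk.1 + B.u gk.2) (fun _ => 0)
    have hsplit : ∀ f : (Fin m → Bool) → (B.ι → Bool) → ℝ,
        ∑ x : Fin m ⊕ B.ι → Bool, f (x ∘ Sum.inl) (x ∘ Sum.inr) = ∑ y, ∑ z, f y z := by
      intro f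
      rw [← Fintype.sum_prod_type' (f := f)]
      exact Fintype.sum_equiv (Equiv.sumArrowEquivProdArrow _ _ _) _ _ fun x => rfl
    have hπl : ∀ (x : Fin m ⊕ B.ι → Bool) g k, π x = Sum.inl (g, k) ↔
        π₀ (x ∘ Sum.inl) = some g ∧ B.π (x ∘ Sum.inr) = k := by
      intro x g k
      simp only [π]
      cases π₀ (x ∘ Sum.inl) <;> simp
    have hπr : ∀ (x : Fin m ⊕ B.ι → Bool) p, π x = Sum.inr p ↔
        π₀ (x ∘ Sum.inl) = none ∧ x ∘ Sum.inl = p := by
      intro x p
      simp only [π]
      cases h : π₀ (x ∘ Sum.inl) <;> simp
    refine ⟨{ ι := Fin m ⊕ B.ι, K := ((Fin m → Bool) × B.K) ⊕ (Fin m → Bool),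
              J := univ.disjSum B.J, π := π, s := s, u := u,
              e := B.e.trans ⟨Sum.inr, Sum.inr_injective⟩,
              card_ι := by simp [B.card_ι]; ring,
              card_J := by simp [B.card_J]; ring,
              good := ?_, bad := ?_ }⟩
    · rintro (⟨g, k⟩ | p) S hS a
      · simp only [sum_filter, chi_sum_type S]
        have h1 : ∀ x, (if π x = Sum.inl (g, k) ∧ s x = a then
            chi S.toLeft (x ∘ Sum.inl) * chi S.toRight (x ∘ Sum.inr) else 0) =
            (if π₀ (x ∘ Sum.inl) = some g ∧ B.π (x ∘ Sum.inr) = k ∧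
              s₀ (x ∘ Sum.inl) + B.s (x ∘ Sum.inr) = a then
            chi S.toLeft (x ∘ Sum.inl) * chi S.toRight (x ∘ Sum.inr) else 0) := by
          intro x
          refine if_congr ?_ rfl rfl
          rw [hπl, and_assoc]
          refine and_congr_right fun hg => and_congr_right fun _ => ?_
          simp only [s, hg]
        rw [sum_congr rfl fun x _ => h1 x]
        simp only [hπl]
        rw [hsplit fun y z => if π₀ y = some g ∧ B.π z = k ∧ s₀ y + B.s z = a then
            chi S.toLeft y * chi S.toRight z else 0,
          hsplit fun y z => if π₀ y = some g ∧ B.π z = k then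
            chi S.toLeft y * chi S.toRight z else 0, mul_sum]
        by_cases hR : S.toRight = ∅ ∨ t * d + m + l < S.toRight.card
        · refine sum_congr rfl fun y _ => ?_
          by_cases hy : π₀ y = some g
          · have := B.good k S.toRight hR (a - s₀ y)
            simp only [sum_filter] at this
            simp only [hy, true_and, ← mul_ite_zero, ← mul_sum, eq_sub_iff_add_eq'] at this ⊢
            rw [mul_left_comm, this]
          · simp [hy]
        · push Not at hR
          have hL : d < S.toLeft.card := by
            rcases hS with rfl | hS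
            · exact absurd (by ext; simp) (nonempty_iff_ne_empty.mp hR.1)
            · have := card_toLeft_add_card_toRight (u := S)
              rw [Nat.add_mul, one_mul] at hS
              omega
          simp only [mul_sum]
          rw [sum_comm]
          conv_rhs => rw [sum_comm]
          refine sum_congr rfl fun z _ => ?_
          by_cases hz : B.π z = k
          · have := h0good g S.toLeft (Or.inr hL) (a - B.s z)
            simp only [sum_filter] at this
            simp only [hz, true_and, and_true, eq_sub_iff_add_eq, mul_comm (chi S.toLeft _), ← mul_ite_zero,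
              ← mul_sum] at this ⊢
            rw [mul_left_comm, this]
          · simp [hz]
      · simp only [sum_filter, chi_sum_type S]
        by_cases hp : π₀ p = none
        · have h1 : ∀ x, (π x = Sum.inr p ∧ s x = a) ↔
              (x ∘ Sum.inl = p ∧ sf (x ∘ Sum.inr) = a) := by
            intro x
            rw [hπr]
            constructor
            · rintro ⟨⟨hn, he⟩, hs⟩; simp only [s, hn] at hs; exact ⟨he, hs⟩
            · rintro ⟨he, hs⟩
              have hn : π₀ (x ∘ Sum.inl) = none := by rw [he]; exact hp
              exact ⟨⟨hn, he⟩, by simp only [s, hn]; exact hs⟩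
          have h2 : ∀ x, π x = Sum.inr p ↔ x ∘ Sum.inl = p := fun x => by
            rw [hπr]; exact ⟨fun h => h.2, fun h => ⟨by rw [h]; exact hp, h⟩⟩
          simp only [h1]
          simp only [h2]
          rw [hsplit fun y z => if y = p ∧ sf z = a then chi S.toLeft y * chi S.toRight z else 0,
            hsplit fun y z => if y = p then chi S.toLeft y * chi S.toRight z else 0,
            sum_eq_single p (fun y _ hy => by simp [hy]) (by simp),
            sum_eq_single p (fun y _ hy => by simp [hy]) (by simp)]
          simp only [true_and, if_true, ← mul_ite_zero, ← mul_sum]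
          have hR : S.toRight = ∅ ∨ l < S.toRight.card := by
            rcases hS with rfl | hS
            · left; ext; simp
            · have := card_toLeft_add_card_toRight (u := S)
              have hm := card_le_univ S.toLeft
              rw [Fintype.card_fin] at hm
              right; omega
          have := hsf S.toRight hR a
          simp only [sum_filter] at this
          rw [mul_left_comm, this]
        · have h1 : ∀ x, ¬ π x = Sum.inr p := fun x h => by
            rw [hπr] at h; exact hp (h.2 ▸ h.1)
          simp [h1]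
    · have hsub : (univ.filter fun x : Fin m ⊕ B.ι → Bool => u (π x) ≠ part (univ.disjSum B.J) x)
          ⊆ (univ.filter fun x : Fin m ⊕ B.ι → Bool =>
              π₀ (x ∘ Sum.inl) = none ∨ B.u (B.π (x ∘ Sum.inr)) ≠ part B.J (x ∘ Sum.inr)) := by
        intro x
        simp only [mem_filter, mem_univ, true_and]
        intro hx
        by_contra hc
        push Not at hc
        obtain ⟨g, hg⟩ := Option.ne_none_iff_exists'.mp hc.1
        apply hx
        simp only [π, hg, u, Sum.elim_inl, hc.2, ← h0tot _ g hg]
        simp [part, sum_disjSum]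
      rw [Nat.le_div_iff_mul_le (by positivity)]
      have hc : (univ.filter fun x : Fin m ⊕ B.ι → Bool =>
            π₀ (x ∘ Sum.inl) = none ∨ B.u (B.π (x ∘ Sum.inr)) ≠ part B.J (x ∘ Sum.inr)).card
          ≤ (univ.filter fun y => π₀ y = none).card * 2 ^ (t * m + l)
            + 2 ^ m * (univ.filter fun z : B.ι → Bool => B.u (B.π z) ≠ part B.J z).card := by
        rw [filter_or]
        refine (card_union_le _ _).trans (add_le_add (le_of_eq ?_) (le_of_eq ?_))
        · refine Eq.trans ?_ ((card_product _ (univ : Finset (B.ι → Bool))).trans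
            (congrArg (_ * ·) (by simp [B.card_ι])))
          exact card_equiv (Equiv.sumArrowEquivProdArrow _ _ _) fun x => by
            simp [Equiv.sumArrowEquivProdArrow]
        · refine Eq.trans ?_ ((card_product (univ : Finset (Fin m → Bool)) _).trans
            (congrArg (· * _) (by simp)))
          exact card_equiv (Equiv.sumArrowEquivProdArrow _ _ _) fun x => by
            simp [Equiv.sumArrowEquivProdArrow]
      refine (Nat.mul_le_mul_right _ ((card_le_card hsub).trans hc)).trans ?_
      have hb := B.bad
      rw [Nat.le_div_iff_mul_le (by positivity)] at hb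
      have he : (2:ℕ) ^ ((t + 1) * m + l) = 2 ^ (t * m + l) * 2 ^ m := by rw [← pow_add]; ring_nf
      rw [he, add_mul]
      calc (univ.filter fun y => π₀ y = none).card * 2 ^ (t * m + l) * 2 ^ m
            + 2 ^ m * (univ.filter fun z : B.ι → Bool => B.u (B.π z) ≠ part B.J z).card * 2 ^ m
          ≤ L * 2 ^ (t * m + l) * 2 ^ m + 2 ^ m * (t * L * 2 ^ (t * m + l)) := by
            refine add_le_add (Nat.mul_le_mul_right _ (Nat.mul_le_mul_right _ h0cnt)) ?_
            rw [mul_assoc]; exact Nat.mul_le_mul_left _ hb
        _ = _ := by ring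

end Vale.Agent.P047
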